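import Crest.Agent.R318N.Pack

/-! Row 318: the configuration programs. -/

set_option autoImplicit false

open Finset Crest.BinPacking

namespace Crest.Agent.R318N

section copy

variable {ι J : Type} [Fintype ι] [DecidableEq ι] [Fintype J] {a : ι → ℚ} {d B : ℕ}

lemma copy_feas (hd : 0 < d) (hJ : Fintype.card J = d * B) (h : Cov a J d) :
    ∃ y : Finset ι → ℝ, CopyLPFeasible a y ∧ copyLPCost y = B := by
  classical
  obtain ⟨H, h1, h2⟩ := h
  have hd' : (0 : ℝ) < d := by exact_mod_cast hd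
  refine ⟨fun S => (#{j | H j = S} : ℝ) / d, ⟨fun S => by positivity, fun S hS => ?_, fun i => ?_⟩,
    ?_⟩
  · obtain ⟨j, hj⟩ : ({j | H j = S} : Finset J).Nonempty := by
      rw [← card_pos]
      by_contra hcon
      exact hS (by simp [Nat.eq_zero_of_not_pos hcon])
    exact (mem_filter.1 hj).2 ▸ h1 j
  · obtain ⟨φ, h3, h4⟩ := h2 i
    rw [← sum_div, le_div_iff₀ hd', one_mul, ← Nat.cast_sum, Nat.cast_le,
      sum_card_fiberwise_eq_card_filter]
    simpa using card_le_card_of_injOn (s := univ) (t := {j | H j ∈ ({S | i ∈ S} : Finset _)}) φ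
      (fun s _ => by simpa using h4 s) h3.injOn
  · rw [copyLPCost, ← sum_div, ← Nat.cast_sum, sum_card_fiberwise_eq_card_filter]
    simp only [mem_univ, filter_true, card_univ, hJ]
    push_cast
    field_simp

lemma copy_low {w : ι → ℕ} (hw : ∀ i, 39 * (w i : ℚ) ≤ 760 * a i) (hB : ∑ i, w i = 19 * B)
    (y : Finset ι → ℝ) (hy : CopyLPFeasible a y) : (B : ℝ) ≤ copyLPCost y := by
  obtain ⟨h1, h2, h3⟩ := hy
  have a1 : ∑ i, (w i : ℝ) ≤ ∑ i, ∑ S, if i ∈ S then y S * w i else 0 := sum_le_sum fun i _ => by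
    rw [← sum_filter, ← sum_mul]
    exact le_mul_of_one_le_left (Nat.cast_nonneg _) (h3 i)
  have a2 : ∀ S : Finset ι, (∑ i, if i ∈ S then y S * w i else 0) ≤ y S * 19 := fun S => by
    rw [← sum_filter, ← mul_sum, filter_mem_eq_inter, univ_inter]
    rcases eq_or_ne (y S) 0 with h0 | h0
    · simp [h0]
    · refine mul_le_mul_of_nonneg_left ?_ (h1 S)
      exact_mod_cast sum_wt_le hw (h2 S h0)
  rw [sum_comm, ← Nat.cast_sum, hB] at a1
  have a3 := a1.trans (sum_le_sum fun S _ => a2 S)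
  rw [← sum_mul] at a3
  push_cast at a3
  unfold copyLPCost
  linarith

end copy

section type

variable {m : ℕ} {σ : Fin m → ℚ} {mult : Fin m → ℕ} {J : Type} [Fintype J] {d B : ℕ}

lemma type_feas (hd : 0 < d) (hJ : Fintype.card J = d * B)
    (h : Cov (fun i : (j : Fin m) × Fin (mult j) => σ i.1) J d) :
    ∃ z, TypeLPFeasible σ mult z ∧ typeLPCost z = B := by
  classical
  obtain ⟨H, h1, h2⟩ := h
  have hd' : (0 : ℝ) < d := by exact_mod_cast hd
  set c : J → Fin m → ℕ := fun j t => #{i ∈ H j | i.1 = t} with hc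
  have key : ∀ f : (Fin m → ℕ) → ℝ, (∑ j, Finsupp.single (c j) (1 / d : ℝ)).sum
      (fun c v => f c * v) = ∑ j, f (c j) * (1 / d) := fun f => by
    rw [← Finsupp.sum_finsetSum_index (fun _ => mul_zero _) fun _ _ _ => mul_add _ _ _]
    exact sum_congr rfl fun j _ => Finsupp.sum_single_index (mul_zero _)
  refine ⟨∑ j, Finsupp.single (c j) (1 / d : ℝ), ⟨fun p => ?_, fun p hp => ?_, fun t => ?_⟩, ?_⟩
  · rw [Finsupp.finsetSum_apply]
    exact sum_nonneg fun j _ => by rw [Finsupp.single_apply]; split_ifs <;> positivity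
  · obtain ⟨j, -, hj⟩ := mem_biUnion.1 (Finsupp.support_finsetSum hp)
    rw [mem_singleton.1 (Finsupp.support_single_subset hj)]
    refine le_trans (le_of_eq ?_) (h1 j)
    rw [← sum_fiberwise (H j) Sigma.fst]
    refine sum_congr rfl fun t _ => ?_
    rw [sum_congr rfl fun i hi => congrArg σ (mem_filter.1 hi).2, sum_const, nsmul_eq_mul, mul_comm]
  · rw [key fun c => c t, ← sum_mul, mul_one_div, le_div_iff₀ hd', ← Nat.cast_sum, ← Nat.cast_mul,
      Nat.cast_le]
    choose φ h3 h4 using h2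
    rw [← card_sigma]
    simpa using card_le_card_of_injOn (s := (univ : Finset (Fin (mult t) × Fin d)))
      (t := univ.sigma fun j => {i ∈ H j | i.1 = t}) (fun p => ⟨φ ⟨t, p.1⟩ p.2, ⟨t, p.1⟩⟩)
      (fun p _ => by simpa using h4 _ _) fun p _ q _ e => by
        simp only [Sigma.mk.injEq, heq_eq_eq, true_and] at e
        exact Prod.ext e.2 (h3 _ (e.1.trans (by rw [e.2])))
  · have := key fun _ => 1
    simp only [one_mul] at this
    rw [typeLPCost, this, sum_const, card_univ, hJ, nsmul_eq_mul]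
    push_cast
    field_simp

lemma type_low {w : Fin m → ℕ} (hw : ∀ j, 39 * (w j : ℚ) ≤ 760 * σ j)
    (hB : ∑ j, mult j * w j = 19 * B) (z : (Fin m → ℕ) →₀ ℝ) (hz : TypeLPFeasible σ mult z) :
    (B : ℝ) ≤ typeLPCost z := by
  obtain ⟨h1, h2, h3⟩ := hz
  have a1 : ∑ j, ((mult j * w j : ℕ) : ℝ) ≤ ∑ j, ∑ c ∈ z.support, z c * (c j * w j : ℕ) :=
    sum_le_sum fun j _ => by
      have := mul_le_mul_of_nonneg_right (h3 j) (Nat.cast_nonneg (w j))
      rw [Finsupp.sum, sum_mul] at this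
      push_cast
      exact this.trans_eq (sum_congr rfl fun c _ => by ring)
  have a2 : ∀ c ∈ z.support, ∑ j, z c * (c j * w j : ℕ) ≤ z c * 19 := fun c hc => by
    rw [← mul_sum]
    refine mul_le_mul_of_nonneg_left ?_ (h1 c)
    have := sum_wt_le (a := fun j => σ j * c j) (w := fun j => c j * w j) (fun j => by
      have := mul_le_mul_of_nonneg_right (hw j) (Nat.cast_nonneg (α := ℚ) (c j))
      push_cast; linarith) (h2 c hc)
    exact_mod_cast this
  rw [sum_comm, ← Nat.cast_sum, hB] at a1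
  have a3 := a1.trans (sum_le_sum a2)
  rw [← sum_mul] at a3
  push_cast at a3
  unfold typeLPCost Finsupp.sum
  linarith

end type

/-- Grouping the items by size. -/
lemma exists_types {ι : Type} [Fintype ι] (a : ι → ℚ) :
    ∃ (m : ℕ) (σ : Fin m → ℚ) (mult : Fin m → ℕ) (e : ((j : Fin m) × Fin (mult j)) ≃ ι),
      Function.Injective σ ∧ (∀ j, 0 < mult j) ∧ ∀ i, σ i.1 = a (e i) := by
  classical
  set T := univ.image a
  let ty : ι → Fin #T := fun i => T.equivFin ⟨a i, mem_image_of_mem _ (mem_univ _)⟩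
  refine ⟨#T, fun j => (T.equivFin.symm j).1, fun j => Fintype.card {i // ty i = j},
    (Equiv.sigmaCongrRight fun j => (Fintype.equivFin {i // ty i = j}).symm).trans
      (Equiv.sigmaFiberEquiv ty), Subtype.val_injective.comp T.equivFin.symm.injective,
    fun j => ?_, fun i => ?_⟩
  · obtain ⟨i, -, hi⟩ := mem_image.1 (T.equivFin.symm j).2
    exact Fintype.card_pos_iff.2 ⟨⟨i, by simp [ty, hi]⟩⟩
  · have := ((Fintype.equivFin {i' // ty i' = i.1}).symm i.2).2
    rw [← this]
    simp only [ty, Equiv.symm_apply_apply]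
    rfl

lemma Gad.Bd.bnd {g : Gad} (hg : g.Bd) (h : ℕ) : Bnd (g.tY h) (g.tX h) (g.tL h) (3 * g.R) :=
  ⟨by have := hg.one_le; have := g.le_R; omega, hg.tY_le h, hg.tX_le h, hg.tL_le h⟩

/-- The complete graph on four vertices. -/
def k4 : Inst := ⟨4, 2, 16, fun i v => v == i / 4 || v == i % 4, fun _ => 1⟩

lemma k4_yes : k4.Yes 2 :=
  ⟨![({0, 1} : Finset (Fin 4)), ({2, 3} : Finset (Fin 4))], by decide, by decide⟩

lemma k4_no : ¬ k4.Yes 1 := by
  rintro ⟨U, h1, h2⟩
  have h : ∀ U : Finset (Fin 4), #U = 2 →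
      ¬ ∀ i : Fin 16, #(U.filter fun v : Fin 4 => k4.A i v) ≤ 1 := by decide
  exact h (U 0) (h1 0) fun i => (Fin.sum_univ_one _).symm.trans_le (h2 i)

end Crest.Agent.R318N
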