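import Mathlib

/-! Row 318: one level of the nested interval construction; generic lemmas. -/

set_option autoImplicit false

open Finset

namespace Crest.Agent.R318N

/-- A set of pairs with injective projections. -/
def Mat {β : Type} (M : Finset (β × β)) : Prop :=
  (∀ p ∈ M, ∀ q ∈ M, p.1 = q.1 → p = q) ∧ ∀ p ∈ M, ∀ q ∈ M, p.2 = q.2 → p = q

/-- Indicator of `θ ≤ z`. -/
def ind (θ z : ℤ) : ℕ := if θ ≤ z then 1 else 0

lemma ind_le_one (θ z : ℤ) : ind θ z ≤ 1 := by unfold ind; split_ifs <;> omega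

lemma ind_of_le {θ z : ℤ} (h : θ ≤ z) : ind θ z = 1 := if_pos h

lemma ind_of_lt {θ z : ℤ} (h : z < θ) : ind θ z = 0 := if_neg (not_le.2 h)

lemma ind_sub (θ z D : ℤ) : ind θ (z - D) = ind (θ + D) z := by
  unfold ind; congr 1; exact propext ⟨fun h => by omega, fun h => by omega⟩

lemma ind_anti {θ θ' : ℤ} (h : θ ≤ θ') (z : ℤ) : ind θ' z ≤ ind θ z := by
  unfold ind; split_ifs <;> omega

lemma ind_mono (θ : ℤ) {z z' : ℤ} (h : z ≤ z') : ind θ z ≤ ind θ z' := by
  unfold ind; split_ifs <;> omega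

lemma sum_ind_le {β : Type} (s : Finset β) (f : β → ℤ) (θ : ℤ) : ∑ p ∈ s, ind θ (f p) ≤ #s := by
  rw [card_eq_sum_ones]; exact sum_le_sum fun _ _ => ind_le_one _ _

lemma sum_ind_eq {β : Type} (s : Finset β) (f : β → ℤ) (θ : ℤ) :
    ∑ p ∈ s, ind θ (f p) = #{p ∈ s | θ ≤ f p} := by
  rw [card_filter]; rfl

/-- Isolation of one band among bands with disjoint ranges. -/
lemma isolate {κ : Type} [Fintype κ] (e : κ → ℕ) (he : Function.Injective e) (t : ℕ → ℤ)
    (ht : Antitone t) (cP cL : κ → ℤ → ℕ) (nP : κ → ℕ) (E leak : ℕ)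
    (hP : ∀ k, Antitone (cP k)) (hL : ∀ k, Antitone (cL k))
    (h1 : ∀ k θ, θ ≤ t (e k + 1) → cP k θ = nP k) (h2 : ∀ k θ, t (e k) ≤ θ → cL k θ = 0)
    (h3 : ∀ k θ, cL k θ ≤ nP k + leak) (h : ∀ θ, ∑ k, cP k θ ≤ ∑ k, cL k θ + E) (k : κ) (θ : ℤ) :
    cP k θ ≤ cL k θ + (E + Fintype.card κ * leak) := by
  classical
  set θ' := min (max θ (t (e k + 1))) (t (e k)) with hθ'
  have a0 : t (e k + 1) ≤ t (e k) := ht (Nat.le_succ _)
  have a1 : cP k θ ≤ cP k θ' := by
    rcases le_total θ (t (e k + 1)) with h4 | h4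
    · rw [h1 k θ h4, h1 k θ' (by rw [hθ', max_eq_right h4]; exact min_le_left _ _)]
    · exact hP k (by rw [hθ', max_eq_left h4]; exact min_le_left _ _)
  have a2 : cL k θ' ≤ cL k θ := by
    rcases le_total (max θ (t (e k + 1))) (t (e k)) with h4 | h4
    · exact hL k (by rw [hθ', min_eq_left h4]; exact le_max_left _ _)
    · rw [h2 k θ' (by rw [hθ', min_eq_right h4])]; exact Nat.zero_le _
  have a3 : ∀ k' ∈ univ.erase k, cL k' θ' ≤ cP k' θ' + leak := by
    intro k' hk'
    have hne : e k' ≠ e k := fun h => (mem_erase.1 hk').1 (he h)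
    rcases lt_or_gt_of_ne hne with h4 | h4
    · rw [h1 k' θ' ((min_le_right _ _).trans (ht h4))]; exact h3 k' θ'
    · rw [h2 k' θ' ((ht h4).trans (le_min (le_max_right _ _) a0))]; exact Nat.zero_le _
  have a4 := sum_le_sum a3
  rw [sum_add_distrib, sum_const, smul_eq_mul] at a4
  have a5 : #(univ.erase k) * leak ≤ Fintype.card κ * leak :=
    Nat.mul_le_mul_right _ (card_le_univ _)
  have a6 := h θ'
  rw [← add_sum_erase _ _ (mem_univ k), ← add_sum_erase _ _ (mem_univ k)] at a6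
  omega

/-- Sorted domination gives an injective assignment. -/
lemma exists_inj_of_dom {X Y : Type} [Fintype X] [Fintype Y] (f : X → ℤ) (g : Y → ℤ)
    (h : ∀ θ, ∑ x, ind θ (f x) ≤ ∑ y, ind θ (g y)) :
    ∃ e : X → Y, Function.Injective e ∧ ∀ x, f x ≤ g (e x) := by
  classical
  refine (Fintype.all_card_le_filter_rel_iff_exists_injective (fun x y => f x ≤ g y)).1 ?_
  intro s
  rcases s.eq_empty_or_nonempty with rfl | hs
  · simp
  obtain ⟨x₀, hx₀, hm⟩ := exists_min_image s f hs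
  have h1 := h (f x₀)
  rw [sum_ind_eq, sum_ind_eq] at h1
  refine le_trans (card_le_card fun x hx => ?_) (h1.trans (card_le_card fun y hy => ?_))
  · exact mem_filter.2 ⟨mem_univ _, hm x hx⟩
  · exact mem_filter.2 ⟨mem_univ _, x₀, hx₀, (mem_filter.1 hy).2⟩

lemma mul_add_inj {m a b a' b' : ℕ} (h1 : b < m) (h2 : b' < m) (h : a * m + b = a' * m + b') :
    a = a' ∧ b = b' := by
  have hm : 0 < m := by omega
  have e1 : (a * m + b) / m = a := by
    rw [add_comm, Nat.add_mul_div_right _ _ hm, Nat.div_eq_of_lt h1, zero_add]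
  have e2 : (a' * m + b') / m = a' := by
    rw [add_comm, Nat.add_mul_div_right _ _ hm, Nat.div_eq_of_lt h2, zero_add]
  have e3 : a = a' := by rw [← e1, h, e2]
  subst e3
  exact ⟨rfl, by omega⟩

lemma mul_add_lt {m n a b : ℕ} (h1 : a < n) (h2 : b < m) : a * m + b < n * m := by
  have := Nat.mul_le_mul_right m (Nat.succ_le_of_lt h1)
  rw [Nat.succ_mul] at this
  omega

/-! ### One level -/

section level

variable {κ α : Type}

/-- Left end points. -/
def lY (pos : κ → ℕ) (y : κ → α → ℤ) (G : ℤ) : Option (κ × α) → ℤ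
  | none => 0
  | some p => (pos p.1 + 1) * G + y p.1 p.2

/-- Right end points. -/
def lX (M : ℕ) (pos : κ → ℕ) (x : κ → α → ℤ) (G : ℤ) : Option (κ × α) → ℤ
  | none => (M + 1) * G
  | some p => (pos p.1 + 1) * G + x p.1 p.2

/-- Pairs passing over an inner cut. -/
def lF (pos : κ → ℕ) : Option (κ × α) → Option (κ × α) → Prop
  | some p, some q => pos p.1 < pos q.1
  | _, _ => True

open Classical in
/-- The pairs inside the child `k`. -/
noncomputable def res [Fintype α] (k : κ) (M : Finset (Option (κ × α) × Option (κ × α))) :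
    Finset (α × α) := univ.filter fun p => (some (k, p.1), some (k, p.2)) ∈ M

lemma mem_res [Fintype α] {k : κ} {M : Finset (Option (κ × α) × Option (κ × α))} {p : α × α} :
    p ∈ res k M ↔ (some (k, p.1), some (k, p.2)) ∈ M := by
  simp [res]

lemma Mat.res [Fintype α] {M : Finset (Option (κ × α) × Option (κ × α))} (h : Mat M) (k : κ) :
    Mat (res k M) := by
  refine ⟨fun p hp q hq e => ?_, fun p hp q hq e => ?_⟩
  · have := h.1 _ (mem_res.1 hp) _ (mem_res.1 hq) (by simp [e])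
    simp only [Prod.mk.injEq, Option.some.injEq, true_and] at this
    exact Prod.ext this.1 this.2
  · have := h.2 _ (mem_res.1 hp) _ (mem_res.1 hq) (by simp [e])
    simp only [Prod.mk.injEq, Option.some.injEq, true_and] at this
    exact Prod.ext this.1 this.2

lemma sum_res_le [Fintype κ] [Fintype α] (M : Finset (Option (κ × α) × Option (κ × α)))
    (w : Option (κ × α) × Option (κ × α) → ℕ) :
    ∑ k, ∑ p ∈ res k M, w (some (k, p.1), some (k, p.2)) ≤ ∑ q ∈ M, w q := by
  classical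
  rw [sum_sigma']
  rw [← sum_image (s := univ.sigma fun k => res k M)
    (g := fun z : (_ : κ) × (α × α) => (some (z.1, z.2.1), some (z.1, z.2.2))) (f := w)]
  · refine sum_le_sum_of_subset fun q hq => ?_
    obtain ⟨z, hz, rfl⟩ := mem_image.1 hq
    exact mem_res.1 (mem_sigma.1 hz).2
  · rintro ⟨k, a, b⟩ - ⟨k', a', b'⟩ - h
    simp only [Prod.mk.injEq, Option.some.injEq] at h
    obtain ⟨⟨rfl, rfl⟩, -, rfl⟩ := h
    rfl

open Classical in
/-- Accounting of unmatched items of a child. -/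
lemma acc [Fintype κ] [Fintype α] {pos : κ → ℕ} (hpos : Function.Injective pos)
    {M : Finset (Option (κ × α) × Option (κ × α))} (hM : Mat M) (k : κ) :
    Fintype.card α + #M ≤ #(res k M) + Fintype.card κ * Fintype.card α +
      #{p ∈ M | lF pos p.1 p.2} := by
  set A := univ.filter fun k' => pos k' < pos k
  set C := univ.filter fun k' => pos k < pos k'
  set M1 := M.filter fun p => p ∈ (res k M).image fun p => (some (k, p.1), some (k, p.2))
  set M2 := M.filter fun p => p.2 ∈ (A ×ˢ (univ : Finset α)).image some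
  set M3 := M.filter fun p => p.1 ∈ (C ×ˢ (univ : Finset α)).image some
  have h0 : M ⊆ {p ∈ M | lF pos p.1 p.2} ∪ M1 ∪ M2 ∪ M3 := by
    rintro ⟨a, b⟩ hp
    simp only [mem_union, mem_filter, hp, true_and, M1, M2, M3, A, C]
    rcases a with _ | ⟨ka, a⟩
    · exact Or.inl (Or.inl (Or.inl trivial))
    rcases b with _ | ⟨kb, b⟩
    · exact Or.inl (Or.inl (Or.inl trivial))
    by_cases h1 : pos ka < pos kb
    · exact Or.inl (Or.inl (Or.inl h1))
    by_cases h2 : pos kb < pos k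
    · exact Or.inl (Or.inr (mem_image_of_mem _ (by simp [h2])))
    by_cases h3 : pos k < pos ka
    · exact Or.inr (mem_image_of_mem _ (by simp [h3]))
    obtain rfl : ka = k := hpos (by omega)
    obtain rfl : kb = ka := hpos (by omega)
    exact Or.inl (Or.inl (Or.inr (mem_image.2 ⟨(a, b), mem_res.2 hp, rfl⟩)))
  have h1 : #M1 ≤ #(res k M) :=
    (card_le_card fun p hp => (mem_filter.1 hp).2).trans card_image_le
  have h2 : #M2 ≤ #A * Fintype.card α := by
    refine (card_le_card_of_injOn Prod.snd (fun p hp => (mem_filter.1 hp).2) fun p hp q hq e =>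
      hM.2 p (mem_filter.1 hp).1 q (mem_filter.1 hq).1 e).trans (card_image_le.trans_eq ?_)
    rw [card_product, card_univ]
  have h3 : #M3 ≤ #C * Fintype.card α := by
    refine (card_le_card_of_injOn Prod.fst (fun p hp => (mem_filter.1 hp).2) fun p hp q hq e =>
      hM.1 p (mem_filter.1 hp).1 q (mem_filter.1 hq).1 e).trans (card_image_le.trans_eq ?_)
    rw [card_product, card_univ]
  have h4 : #A + #C + 1 ≤ Fintype.card κ := by
    rw [← card_union_of_disjoint (disjoint_filter.2 fun k' _ h => by omega),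
      ← card_insert_of_notMem (a := k) (by simp)]
    exact card_le_univ _
  have h5 := Nat.mul_le_mul_right (Fintype.card α) h4
  have h6 := (card_le_card h0).trans ((card_union_le _ _).trans (Nat.add_le_add_right
    ((card_union_le _ _).trans (Nat.add_le_add_right (card_union_le _ _) _)) _))
  rw [add_mul, add_mul, one_mul] at h5
  omega

end level

/-! ### Geometry -/

/-- Bounds of a parametrised system of end points. -/
def Geo {β : Type} (y x : ℤ → β → ℤ) (F : β → β → Prop) (W Λ : ℕ) : Prop :=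
  ∀ G : ℤ, 0 ≤ G → (∀ n, |y G n| ≤ W * G + Λ) ∧ (∀ n, |x G n| ≤ W * G + Λ) ∧
    ∀ a b, F a b → G - 2 * Λ ≤ x G b - y G a

/-- The scales. -/
def sc (W Λ e : ℕ) : ℕ := Λ * (10 * W + 5) ^ e

lemma sc_succ (W Λ e : ℕ) : (sc W Λ (e + 1) : ℤ) = 10 * (W * sc W Λ e) + 5 * sc W Λ e := by
  simp only [sc]; push_cast; ring

lemma sc_mono (W Λ : ℕ) {e e' : ℕ} (h : e ≤ e') : (sc W Λ e : ℤ) ≤ sc W Λ e' := by
  exact_mod_cast Nat.mul_le_mul_left _ (Nat.pow_le_pow_right (by omega) h)

lemma le_sc (W Λ e : ℕ) : (Λ : ℤ) ≤ sc W Λ e := by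
  simpa [sc] using sc_mono W Λ (Nat.zero_le e)

section geo

variable {β : Type} {y x : ℤ → β → ℤ} {F : β → β → Prop} {W Λ : ℕ}

lemma Geo.y_le (h : Geo y x F W Λ) (e : ℕ) (n : β) :
    |y (5 * sc W Λ e) n| ≤ 5 * (W * sc W Λ e) + Λ :=
  ((h _ (by positivity)).1 n).trans_eq (by ring)

lemma Geo.x_le (h : Geo y x F W Λ) (e : ℕ) (n : β) :
    |x (5 * sc W Λ e) n| ≤ 5 * (W * sc W Λ e) + Λ :=
  ((h _ (by positivity)).2.1 n).trans_eq (by ring)

lemma Geo.fwd (h : Geo y x F W Λ) (e : ℕ) {a b : β} (hF : F a b) :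
    2 * (sc W Λ e : ℤ) ≤ x (5 * sc W Λ e) b - y (5 * sc W Λ e) a - sc W Λ e := by
  have := (h (5 * sc W Λ e) (by positivity)).2.2 a b hF
  have := le_sc W Λ e
  omega

lemma Geo.up (h : Geo y x F W Λ) (e : ℕ) (a b : β) :
    x (5 * sc W Λ e) b - y (5 * sc W Λ e) a - sc W Λ e ≤ sc W Λ (e + 1) := by
  have h1 := abs_le.1 (h.y_le e a)
  have h2 := abs_le.1 (h.x_le e b)
  have := le_sc W Λ e
  rw [sc_succ]
  omega

lemma Geo.low (h : Geo y x F W Λ) (hΛ : 1 ≤ Λ) (e : ℕ) (a b : β) :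
    (Λ : ℤ) - sc W Λ (e + 1) + 1 ≤ x (5 * sc W Λ e) b - y (5 * sc W Λ e) a - sc W Λ e := by
  have h1 := abs_le.1 (h.y_le e a)
  have h2 := abs_le.1 (h.x_le e b)
  have := le_sc W Λ e
  rw [sc_succ]
  omega

lemma Geo.y_le' (h : Geo y x F W Λ) {e em : ℕ} (he : e < em) (n : β) :
    |y (5 * sc W Λ e) n| ≤ sc W Λ em := by
  have h1 := h.y_le e n
  have h2 := le_sc W Λ e
  have h3 := sc_mono W Λ (Nat.succ_le_of_lt he)
  have h4 : (0 : ℤ) ≤ W * sc W Λ e := by positivity
  rw [sc_succ] at h3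
  omega

lemma Geo.x_le' (h : Geo y x F W Λ) {e em : ℕ} (he : e < em) (n : β) :
    |x (5 * sc W Λ e) n - sc W Λ e| ≤ sc W Λ em := by
  have h1 := abs_le.1 (h.x_le e n)
  have h2 := le_sc W Λ e
  have h3 := sc_mono W Λ (Nat.succ_le_of_lt he)
  have h4 : (0 : ℤ) ≤ W * sc W Λ e := by positivity
  rw [sc_succ] at h3
  rw [abs_le]
  omega

lemma lab_le' {z : ℤ} (hz : |z| ≤ Λ) {e em : ℕ} (he : e < em) :
    |z - sc W Λ e| ≤ sc W Λ em := by
  have h1 := abs_le.1 hz
  have h2 := le_sc W Λ e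
  have h3 := sc_mono W Λ (Nat.succ_le_of_lt he)
  have h4 : (0 : ℤ) ≤ W * sc W Λ e := by positivity
  rw [sc_succ] at h3
  rw [abs_le]
  omega

end geo

lemma geo_level {κ α : Type} {M Λ : ℕ} {pos : κ → ℕ} (hpos : ∀ k, pos k < M) {y x : κ → α → ℤ}
    (hy : ∀ k n, |y k n| ≤ Λ) (hx : ∀ k n, |x k n| ≤ Λ) :
    Geo (lY pos y) (lX M pos x) (lF pos) (M + 1) Λ := by
  intro G hG
  have key : ∀ a b : ℕ, a < b → (a + 1 : ℤ) * G + G ≤ (b + 1 : ℤ) * G := fun a b h => by
    have : (a + 1 : ℤ) + 1 ≤ b + 1 := by omega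
    nlinarith
  have k0 : ∀ a : ℕ, G ≤ (a + 1 : ℤ) * G := fun a => by
    have : (0 : ℤ) ≤ a * G := by positivity
    linarith
  refine ⟨fun n => ?_, fun n => ?_, fun a b h => ?_⟩
  · rcases n with _ | ⟨k, n⟩
    · simp only [lY, abs_zero]; positivity
    · have h1 := abs_le.1 (hy k n)
      have h2 := key _ _ (hpos k)
      have h3 := k0 (pos k)
      simp only [lY]; push_cast; rw [abs_le]; omega
  · rcases n with _ | ⟨k, n⟩
    · have h3 := k0 M
      simp only [lX]; push_cast; rw [abs_le]; omega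
    · have h1 := abs_le.1 (hx k n)
      have h2 := key _ _ (hpos k)
      have h3 := k0 (pos k)
      simp only [lX]; push_cast; rw [abs_le]; omega
  · rcases a with _ | ⟨k, a⟩ <;> rcases b with _ | ⟨k', b⟩ <;> simp only [lX, lY]
    · have := k0 M; omega
    · have := k0 (pos k'); have := abs_le.1 (hx k' b); omega
    · have := key _ _ (hpos k); have := abs_le.1 (hy k a); omega
    · have := key (pos k) (pos k') h; have := abs_le.1 (hy k a); have := abs_le.1 (hx k' b); omega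

/-! ### Solutions -/

/-- Nodes of colour `0` are covered, nodes of one nonzero colour lie side by side. -/
def OK {β : Type} (y x lv : β → ℤ) (col : β → ℕ) : Prop :=
  (∀ n, col n = 0 → x n - y n ≤ lv n) ∧
    ∀ n n', n' ≠ n → col n ≠ 0 → col n' = col n → y n' ≤ y n → x n' - y n ≤ lv n

lemma OK.shift {β : Type} {y x lv : β → ℤ} {col : β → ℕ} (h : OK y x lv col) (D : ℤ) :
    OK y (fun n => x n - D) (fun n => lv n - D) col :=
  ⟨fun n h1 => by have := h.1 n h1; dsimp only; omega,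
    fun n n' h1 h2 h3 h4 => by have := h.2 n n' h1 h2 h3 h4; dsimp only; omega⟩

lemma OK.root {β : Type} {y x lv : Option β → ℤ} {col : Option β → ℕ}
    (h : OK (fun n => y (some n)) (fun n => x (some n)) (fun n => lv (some n)) fun n => col (some n))
    (h1 : col none = 0 → x none - y none ≤ lv none)
    (h2 : col none ≠ 0 → ∀ n, col (some n) ≠ col none) : OK y x lv col := by
  refine ⟨fun n hn => ?_, fun n n' a1 a2 a3 a4 => ?_⟩
  · rcases n with _ | n
    exacts [h1 hn, h.1 n hn]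
  · rcases n with _ | n <;> rcases n' with _ | n'
    · exact absurd rfl a1
    · exact absurd a3 (h2 a2 n')
    · exact absurd a3.symm (h2 (a3 ▸ a2) n)
    · exact h.2 n n' (fun e => a1 (congrArg some e)) a2 a3 a4

lemma OK.level {κ α : Type} {Λ : ℕ} {pos : κ → ℕ} (hpos : Function.Injective pos)
    {y x lv : κ → α → ℤ} {col : κ → α → ℕ} (h : ∀ k, OK (y k) (x k) (lv k) (col k))
    (hy : ∀ k n, |y k n| ≤ Λ) (hx : ∀ k n, |x k n| ≤ Λ) (hl : ∀ k n, |lv k n| ≤ Λ) (hΛ : 1 ≤ Λ)
    {G : ℤ} (hG : 5 * (Λ : ℤ) ≤ G) (M : ℕ) :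
    OK (fun n : κ × α => lY pos y G (some n)) (fun n => lX M pos x G (some n))
      (fun n => lv n.1 n.2) fun n => col n.1 n.2 := by
  have key : ∀ a b : ℕ, a < b → (a + 1 : ℤ) * G + G ≤ (b + 1 : ℤ) * G := fun a b h => by
    have : (a + 1 : ℤ) + 1 ≤ b + 1 := by omega
    have : 0 ≤ G := by omega
    nlinarith
  refine ⟨fun ⟨k, n⟩ hn => ?_, fun ⟨k, n⟩ ⟨k', n'⟩ a1 a2 a3 a4 => ?_⟩
  · have := (h k).1 n hn
    simp only [lX, lY]; omega
  · simp only [lX, lY] at a2 a3 a4 ⊢
    have b1 := abs_le.1 (hy k n)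
    have b2 := abs_le.1 (hy k' n')
    have b3 := abs_le.1 (hx k' n')
    have b4 := abs_le.1 (hl k n)
    rcases lt_trichotomy (pos k') (pos k) with h1 | h1 | h1
    · have := key _ _ h1; omega
    · obtain rfl := hpos h1
      have := (h k').2 n n' (fun e => a1 (by rw [e])) a2 a3 (by omega)
      omega
    · have := key _ _ h1; omega

end Crest.Agent.R318N
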