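import Crest.Agent.R318N.LP
import Crest.Agent.Lib.PT.Parse

/-! Row 318: the construction runs in polynomial time. -/

set_option autoImplicit false

open Finset Crest.BinPacking

namespace Crest.Agent.R318N

open Crest.Agent.Lib.PT

/-- The list `l` enumerates the values of `f`. -/
def Rep {β γ : Type} [Fintype β] (l : List γ) (f : β → γ) : Prop :=
  (l : Multiset γ) = ∑ n, {f n}

section rep

variable {β β' γ δ : Type} [Fintype β] [Fintype β']

lemma Rep.map {l : List γ} {f : β → γ} (h : Rep l f) (φ : γ → δ) :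
    Rep (l.map φ) fun n => φ (f n) := by
  unfold Rep at *
  rw [← Multiset.map_coe, h, ← Multiset.coe_mapAddMonoidHom, map_sum]
  simp

lemma Rep.cons {l : List γ} {f : Option β → γ} (h : Rep l fun n => f (some n)) :
    Rep (f none :: l) f := by
  unfold Rep at *
  rw [Fintype.sum_option, ← h, Multiset.singleton_add, Multiset.cons_coe]

lemma Rep.append {l l' : List γ} {f : β ⊕ β' → γ} (h : Rep l fun n => f (.inl n))
    (h' : Rep l' fun n => f (.inr n)) : Rep (l ++ l') f := by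
  unfold Rep at *
  rw [Fintype.sum_sum_type, ← h, ← h', Multiset.coe_add]

lemma coe_flatMap_range (n : ℕ) (F : ℕ → List γ) :
    (((List.range n).flatMap F : List γ) : Multiset γ) = ∑ i : Fin n, (F i : Multiset γ) := by
  rw [Fin.sum_univ_eq_sum_range (fun i => (F i : Multiset γ))]
  induction n with
  | zero => simp
  | succ n ih => rw [List.range_succ, List.flatMap_append, ← Multiset.coe_add, ih, sum_range_succ]; simp

lemma Rep.flat {n : ℕ} {F : ℕ → List γ} {f : Fin n × β → γ}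
    (h : ∀ i : Fin n, Rep (F i) fun b => f (i, b)) : Rep ((List.range n).flatMap F) f := by
  unfold Rep at *
  rw [coe_flatMap_range, Fintype.sum_prod_type]
  exact sum_congr rfl fun i _ => h i

lemma Rep.flat₂ {n n' : ℕ} {F : ℕ → ℕ → List γ} {f : (Fin n × Fin n') × β → γ}
    (h : ∀ (i : Fin n) (j : Fin n'), Rep (F i j) fun b => f ((i, j), b)) :
    Rep ((List.range n).flatMap fun i => (List.range n').flatMap (F i)) f := by
  unfold Rep at *
  rw [coe_flatMap_range, Fintype.sum_prod_type, Fintype.sum_prod_type]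
  refine sum_congr rfl fun i _ => ?_
  rw [coe_flatMap_range]
  exact sum_congr rfl fun j _ => h i j

lemma Rep.flat₃ {n n' n'' : ℕ} {F : ℕ → ℕ → ℕ → List γ} {f : (Fin n × Fin n' × Fin n'') × β → γ}
    (h : ∀ (i : Fin n) (j : Fin n') (k : Fin n''), Rep (F i j k) fun b => f ((i, j, k), b)) :
    Rep ((List.range n).flatMap fun i => (List.range n').flatMap fun j =>
      (List.range n'').flatMap (F i j)) f := by
  unfold Rep at *
  rw [coe_flatMap_range, Fintype.sum_prod_type, Fintype.sum_prod_type]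
  refine sum_congr rfl fun i _ => ?_
  rw [coe_flatMap_range, Fintype.sum_prod_type]
  refine sum_congr rfl fun j _ => ?_
  rw [coe_flatMap_range]
  exact sum_congr rfl fun k _ => h i j k

lemma Rep.range {n : ℕ} (F : ℕ → γ) : Rep ((List.range n).map F) fun i : Fin n => F i := by
  unfold Rep
  rw [List.map_eq_flatMap, coe_flatMap_range]
  rfl

lemma Rep.congr {l : List γ} {f f' : β → γ} (h : Rep l f) (e : ∀ n, f n = f' n) : Rep l f' :=
  funext e ▸ h

lemma Rep.exists_equiv {l : List γ} {f : β → γ} (h : Rep l f) :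
    ∃ e : Fin l.length ≃ β, ∀ i, l.get i = f (e i) := by
  classical
  have h1 : ∀ z, Fintype.card {i // l.get i = z} = Fintype.card {n // f n = z} := fun z => by
    have h2 : (l : Multiset γ) = ∑ i, {l.get i} := by
      have := Multiset.sum_map_singleton ((univ : Finset (Fin l.length)).val.map l.get)
      rw [Multiset.map_map, Fin.univ_val_map l.get, List.ofFn_get] at this
      exact this.symm
    have h3 := congrArg (Multiset.count z) (h2.symm.trans h)
    simp only [Multiset.count_sum', Multiset.count_singleton, ← card_filter] at h3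
    simpa only [Fintype.card_subtype, eq_comm] using h3
  exact ⟨Equiv.ofFiberEquiv fun z => Fintype.equivOfCardEq (h1 z),
    fun i => (Equiv.ofFiberEquiv_map _ i).symm⟩

end rep

variable {α : Type} [Enc α]

/-- A polynomial-time family of selection problems. -/
structure Fam (α : Type) [Enc α] where
  /-- number of elements -/
  m : α → ℕ
  /-- number of elements to be chosen -/
  u : α → ℕ
  /-- number of constraints -/
  r : α → ℕ
  /-- the sets -/
  A : α × ℕ × ℕ → Bool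
  /-- the capacities -/
  b : α × ℕ → ℕ
  pt_m : PT m
  pb_m : PB m
  pt_u : PT u
  pt_r : PT r
  pb_r : PB r
  pt_A : PT A
  pt_b : PT b

/-- The member of a family. -/
def Fam.I (Φ : Fam α) (a : α) : Inst :=
  ⟨Φ.m a, Φ.u a, Φ.r a, fun i v => Φ.A (a, i, v), fun i => Φ.b (a, i)⟩

/-- A family of clusters is computable in polynomial time. -/
def Comp (g : α → Gad) : Prop :=
  PT (fun a => (g a).W) ∧ PT (fun a => (g a).Λ) ∧
    ∃ (ys xs : α × ℤ → List ℤ) (ls : α → List ℤ), PT ys ∧ PT xs ∧ PT ls ∧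
      (∀ a G, Rep (ys (a, G)) ((g a).y G)) ∧ (∀ a G, Rep (xs (a, G)) ((g a).x G)) ∧
      ∀ a, Rep (ls a) (g a).lam

lemma leaf_comp : Comp fun _ : α => leaf := by
  have : IsEmpty leaf.N := inferInstanceAs (IsEmpty Empty)
  have : IsEmpty leaf.L := inferInstanceAs (IsEmpty Empty)
  refine ⟨PT.const _, PT.const _, fun _ => [0], fun p => [p.2], fun _ => [], by fun_prop,
    by fun_prop, by fun_prop, fun a G => ?_, fun a G => ?_, fun a => by simp [Rep]⟩
  · exact Rep.cons (f := leaf.y G) (by simp [Rep])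
  · exact Rep.cons (f := leaf.x G) (by simp [Rep])

lemma round_comp (Φ : Fam α) {E : α → ℕ} (hE : PT E) (hE' : PB E) {g : α → Gad} (hg : Comp g) :
    Comp fun a => (Φ.I a).round (E a) (g a) := by
  obtain ⟨hW, hΛ, ys, xs, ls, hys, hxs, hls, ry, rx, rl⟩ := hg
  have h1 := Φ.pt_m
  have h2 := Φ.pb_m
  have h3 := Φ.pt_u
  have h4 := Φ.pt_r
  have h5 := Φ.pb_r
  have h6 := Φ.pt_A
  have h7 := Φ.pt_b
  obtain ⟨K, hK⟩ : ∃ K : α → ℕ, K = fun a => (Φ.I a).K (E a) := ⟨_, rfl⟩
  have k1 : PT K := by rw [hK]; simp only [Inst.K, Inst.E1, Fam.I]; fun_prop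
  have k2 : PB K := by rw [hK]; simp only [Inst.K, Inst.E1, Fam.I]; fun_prop
  have k3 : ∀ a, (Φ.I a).K (E a) = K a := fun a => by rw [hK]
  obtain ⟨S2, hS2⟩ : ∃ S2 : α × ℕ → ℤ, S2 = fun p =>
    ((sc (g p.1).W (g p.1).Λ (min p.2 (2 * Φ.r p.1 * (Φ.m p.1 * K p.1))) : ℕ) : ℤ) := ⟨_, rfl⟩
  have s1 : PT S2 := by
    rw [hS2]; unfold sc
    have := hW.comp (PT.fst (PT.id (α := α × ℕ)))
    have := hΛ.comp (PT.fst (PT.id (α := α × ℕ)))
    fun_prop
  have s2 : ∀ a e, e ≤ (Φ.I a).em (E a) → S2 (a, e) = Inst.S2 (g a) e := fun a e h => by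
    rw [hS2]; dsimp only; rw [← k3, min_eq_left (by exact h)]; rfl
  obtain ⟨L1, hL1⟩ : ∃ L1 : α → ℕ, L1 = fun a => (Φ.I a).Λ1 (E a) (g a) := ⟨_, rfl⟩
  have l1 : PT L1 := by
    rw [hL1]; simp only [Inst.Λ1, Inst.em, k3, sc]; simp only [Fam.I]; fun_prop
  obtain ⟨S1, hS1⟩ : ∃ S1 : α × ℕ → ℤ, S1 = fun p =>
    ((sc (Φ.r p.1 * K p.1 + 1) (L1 p.1) (min p.2 (E p.1 + 1)) : ℕ) : ℤ) := ⟨_, rfl⟩
  have t1 : PT S1 := by rw [hS1]; unfold sc; fun_prop
  have t2 : ∀ a e, e ≤ E a + 1 → S1 (a, e) = (Φ.I a).S1 (E a) (g a) e := fun a e h => by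
    rw [hS1, hL1]; dsimp only; rw [← k3, min_eq_left h]; rfl
  obtain ⟨ex, hex⟩ : ∃ ex : α × ℕ × ℕ × ℕ → ℤ, ex = fun p =>
    S2 (p.1, (2 * p.2.2.1 + (Φ.A (p.1, p.2.2.1, p.2.1)).toNat) * (Φ.m p.1 * K p.1) +
      (p.2.1 * K p.1 + p.2.2.2)) := ⟨_, rfl⟩
  have e1 : PT ex := by rw [hex]; fun_prop
  have e2 : ∀ a (v : Fin (Φ.I a).m) (i : Fin (Φ.I a).r) (k : Fin ((Φ.I a).K (E a))),
      ex (a, v, i, k) = Inst.S2 (g a) ((Φ.I a).ex (E a) v i k) := fun a v i k => by
    rw [hex, ← s2 a _ ((Φ.I a).ex_lt_em (E a) v (i, k)).le]; dsimp only; rw [← k3]; rfl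
  refine ⟨by simp only [Inst.round, Fam.I]; fun_prop, ?_,
    fun p => 0 :: (List.range (E p.1 + 1)).flatMap fun j => (List.range (Φ.m p.1)).flatMap fun v =>
      (0 :: (List.range (Φ.r p.1)).flatMap fun i => (List.range (K p.1)).flatMap fun k =>
        (ys (p.1, 5 * ex (p.1, v, i, k))).map fun z =>
          (((i * K p.1 + k : ℕ) : ℤ) + 1) * (5 * S1 (p.1, j)) + z).map fun z =>
        (((j * Φ.m p.1 + v : ℕ) : ℤ) + 1) * p.2 + z,
    fun p => ((((E p.1 + 1) * Φ.m p.1 : ℕ) : ℤ) + 1) * p.2 ::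
      (List.range (E p.1 + 1)).flatMap fun j => (List.range (Φ.m p.1)).flatMap fun v =>
      ((((Φ.r p.1 * K p.1 : ℕ) : ℤ) + 1) * (5 * S1 (p.1, j)) ::
        (List.range (Φ.r p.1)).flatMap fun i => (List.range (K p.1)).flatMap fun k =>
        (xs (p.1, 5 * ex (p.1, v, i, k))).map fun z =>
          (((i * K p.1 + k : ℕ) : ℤ) + 1) * (5 * S1 (p.1, j)) + (z - ex (p.1, v, i, k))).map fun z =>
        (((j * Φ.m p.1 + v : ℕ) : ℤ) + 1) * p.2 + (z - S1 (p.1, j)),
    fun a => ((List.range (E a + 1)).flatMap fun _ => (List.range (Φ.m a)).map fun t =>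
        if t < Φ.u a then 0 else S1 (a, E a + 1)) ++
      (List.range (E a + 1)).flatMap fun j =>
        (((List.range (Φ.m a)).flatMap fun t => (List.range (Φ.r a)).flatMap fun i =>
          (List.range (K a)).map fun _ => if t < Φ.u a then
            S2 (a, (2 * i + (if t < Φ.b (a, i) then 1 else 0) + 1) * (Φ.m a * K a)) else 0) ++
        (List.range (Φ.m a)).flatMap fun v => (List.range (Φ.r a)).flatMap fun i =>
          (List.range (K a)).flatMap fun k => (ls a).map fun z => z - ex (a, v, i, k)).map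
          fun z => z - S1 (a, j),
    by fun_prop, by fun_prop, by fun_prop, fun a G => ?_, fun a G => ?_, fun a => ?_⟩
  · have : (fun a => ((Φ.I a).round (E a) (g a)).Λ) =
        fun a => sc (Φ.r a * K a + 1) (L1 a) (E a + 1) := by
      funext a; rw [hL1, ← k3]; rfl
    rw [this]; unfold sc; fun_prop
  · dsimp only
    rw [← k3]
    refine Rep.cons (f := ((Φ.I a).round (E a) (g a)).y G) (Rep.flat₂ fun j v => ?_)
    rw [t2 a j j.2.le]
    refine Rep.map (Rep.cons (f := (Φ.I a).y1 (E a) (g a) v (5 * (Φ.I a).S1 (E a) (g a) j))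
      (Rep.flat₂ fun i k => ?_)) _
    rw [e2]
    exact (ry a _).map _
  · dsimp only
    rw [← k3]
    refine Rep.cons (f := ((Φ.I a).round (E a) (g a)).x G) (Rep.flat₂ fun j v => ?_)
    rw [t2 a j j.2.le]
    refine Rep.map (Rep.cons (f := (Φ.I a).x1 (E a) (g a) v _) (Rep.flat₂ fun i k => ?_)) _
    rw [e2]
    exact (rx a _).map _
  · dsimp only
    rw [← k3, t2 a _ le_rfl]
    refine Rep.append (f := (Φ.I a).lam2 (E a) (g a)) (Rep.flat fun j => Rep.range _)
      (Rep.flat fun j => ?_)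
    rw [t2 a j j.2.le]
    refine Rep.map (Rep.append (f := (Φ.I a).lam1 (E a) (g a))
      (Rep.flat fun t => Rep.flat fun i => (Rep.range _).congr fun k => ?_)
      (Rep.flat₃ fun v i k => ?_)) _
    · exact congrArg (fun z => if (t : ℕ) < Φ.u a then z else 0)
        (s2 a _ (Nat.mul_le_mul_right _ ((Φ.I a).rl_lt t i)))
    · rw [e2]
      exact (rl a).map _

lemma tower_comp (Φ : Fam α) : ∀ (h : ℕ) {E : α → ℕ}, PT E → PB E →
    Comp fun a => (Φ.I a).tower h (E a)
  | 0, _, _, _ => leaf_comp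
  | h + 1, E, hE, hE' => by
    have h1 := Φ.pt_m
    have h2 := Φ.pb_m
    have h4 := Φ.pt_r
    have h5 := Φ.pb_r
    refine round_comp Φ hE hE' (tower_comp Φ h (E := fun a => (Φ.I a).nx (E a)) ?_ ?_) <;>
      simp only [Inst.nx, Inst.K, Inst.E1, Fam.I] <;> fun_prop

/-- The gap reduction from selection problems to bin packing. -/
theorem exists_reduction (Φ : Fam α) (hu : ∀ a, Φ.u a ≤ Φ.m a) (c : ℕ) :
    ∃ (sizes : α → List ℚ) (B : α → ℕ), PT sizes ∧ PT B ∧ ∀ a,
      (∀ q ∈ sizes a, 1 / 6 < q ∧ q ≤ 1) ∧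
      ((Φ.I a).Yes 1 → PacksInto (fun i : Fin (sizes a).length => (sizes a).get i) (B a)) ∧
      (¬ (Φ.I a).Yes 1 →
        ¬ PacksInto (fun i : Fin (sizes a).length => (sizes a).get i) (B a + c)) := by
  obtain ⟨g, hg⟩ : ∃ g : α → Gad, g = fun a => (Φ.I a).tower (18 * c + 1) (2 * (18 * c) + 2) :=
    ⟨_, rfl⟩
  obtain ⟨hW, hΛ, ys, xs, ls, hys, hxs, hls, ry, rx, rl⟩ : Comp g :=
    hg ▸ tower_comp Φ _ (PT.const _) (PB.const _)
  obtain ⟨R, hR⟩ : ∃ R : α → ℕ, R = fun a => (g a).R := ⟨_, rfl⟩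
  have r1 : PT R := by rw [hR]; unfold Gad.R; fun_prop
  obtain ⟨Λ, hΛ'⟩ : ∃ Λ : α → ℕ, Λ = fun a => (g a).Λ := ⟨_, rfl⟩
  have r2 : PT Λ := hΛ' ▸ hΛ
  refine ⟨fun a => (ys (a, 5 * Λ a) ++ (List.range (18 * c + 1)).map fun _ => (3 * R a : ℤ)).map
        (fun z => sz19 5 (8 * (3 * R a)) (-z)) ++
      ((xs (a, 5 * Λ a) ++ (List.range (18 * c + 1)).map fun _ => -(3 * R a : ℤ)).map
        (fun z => sz19 6 (8 * (3 * R a)) z) ++
      (((2 * R a : ℤ) :: ls a) ++ (List.range (18 * c + 1)).map fun _ => (0 : ℤ)).map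
        fun z => sz19 8 (8 * (3 * R a)) (-z)),
    fun a => (ys (a, 0)).length + (18 * c + 1), by unfold sz19; fun_prop, by fun_prop, fun a => ?_⟩
  have hbd : (g a).Bd := by rw [hg]; exact (Φ.I a).tower_bd _ _
  have hb := hbd.bnd (18 * c + 1)
  have hc := hbd.card_eq (18 * c + 1)
  have hB : (ys (a, 0)).length + (18 * c + 1) = Fintype.card (Option (g a).N ⊕ Fin (18 * c + 1)) := by
    obtain ⟨e, -⟩ := (ry a 0).exists_equiv
    rw [Fintype.card_sum, ← Fintype.card_congr e, Fintype.card_fin, Fintype.card_fin]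
  dsimp only
  rw [hB, hR, hΛ']
  dsimp only
  obtain ⟨e, he⟩ := (Rep.append
    (f := item ((g a).tY (18 * c + 1)) ((g a).tX (18 * c + 1)) ((g a).tL (18 * c + 1)) (3 * (g a).R))
    ((Rep.append (f := (g a).tY (18 * c + 1)) (ry a _) (Rep.range fun _ => (3 * (g a).R : ℤ))).map
      fun z => sz19 5 (8 * (3 * (g a).R)) (-z))
    (Rep.append ((Rep.append (f := (g a).tX (18 * c + 1)) (rx a _)
      (Rep.range fun _ => -(3 * (g a).R : ℤ))).map fun z => sz19 6 (8 * (3 * (g a).R)) z)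
      ((Rep.append (f := (g a).tL (18 * c + 1))
        (Rep.cons (f := fun n => (g a).tL (18 * c + 1) (.inl n)) (rl a))
        (Rep.range fun _ => (0 : ℤ))).map fun z => sz19 8 (8 * (3 * (g a).R)) (-z)))).exists_equiv
  refine ⟨fun q hq => ?_, fun hy => packs_congr e he ?_,
    fun hn hp => not_packs hb hc ?_ (packs_congr e.symm (fun i => ?_) hp)⟩
  · obtain ⟨i, rfl⟩ := List.get_of_mem hq
    exact (he i).symm ▸ hb.range (e i)
  · have := packs_of_cov (fun i => le_trans (by norm_num) (hb.range i).1.le) (cov_of_yes hb hc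
      (Gad.top_yes _ hbd (by rw [hg]; exact (Φ.I a).tower_yes (hu a) hy _ _)))
    rwa [Fintype.card_prod, Fintype.card_fin, one_mul] at this
  · exact Gad.top_no hbd (by rw [hg]; exact (Φ.I a).tower_no (hu a) hn _ _)
  · exact ((he _).trans (by rw [Equiv.apply_symm_apply])).symm

end Crest.Agent.R318N
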