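import Crest.Agent.R318N.Round

/-! Row 318: soundness of a round. -/

set_option autoImplicit false

open Finset

namespace Crest.Agent.R318N

lemma one_le_sum_ind {β : Type} {s : Finset β} {f : β → ℤ} {θ : ℤ} {p : β} (hp : p ∈ s)
    (h : θ ≤ f p) : 1 ≤ ∑ q ∈ s, ind θ (f q) :=
  (ind_of_le h).symm.trans_le (single_le_sum (f := fun q => ind θ (f q))
    (fun _ _ => Nat.zero_le _) hp)

lemma sum_ind_anti {β : Type} (s : Finset β) (f : β → ℤ) :
    Antitone fun θ => ∑ q ∈ s, ind θ (f q) := fun _ _ h => sum_le_sum fun _ _ => ind_anti h _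

lemma sum_ind_of_le {β : Type} {s : Finset β} {f : β → ℤ} {θ : ℤ} (h : ∀ q ∈ s, θ ≤ f q) :
    ∑ q ∈ s, ind θ (f q) = #s := by
  rw [card_eq_sum_ones]; exact sum_congr rfl fun q hq => ind_of_le (h q hq)

lemma sum_ind_of_lt {β : Type} {s : Finset β} {f : β → ℤ} {θ : ℤ} (h : ∀ q ∈ s, f q < θ) :
    ∑ q ∈ s, ind θ (f q) = 0 := sum_eq_zero fun q hq => ind_of_lt (h q hq)

lemma card_fin_lt {m u : ℕ} (h : u ≤ m) : #{t : Fin m | (t : ℕ) < u} = u := by
  rw [Fin.card_filter_val_lt]; omega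

lemma card_fin_not_lt {m u : ℕ} (h : u ≤ m) : #{t : Fin m | ¬ (t : ℕ) < u} + u = m := by
  have := card_filter_add_card_filter_not (s := (univ : Finset (Fin m))) fun t => (t : ℕ) < u
  rw [card_fin_lt h, card_univ, Fintype.card_fin] at this
  omega

namespace Inst

variable (I : Inst) (E : ℕ) {g : Gad}

/-- The counting inequality between slots of chosen vertices and labels. -/
lemma count_slots (hu : I.u ≤ I.m) {U : Finset (Fin I.m)} (hU : #U = I.u) (i : Fin I.r)
    (hi : I.b i < #(U.filter fun v : Fin I.m => I.A i v)) :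
    ∑ t : Fin I.m, ∑ s : I.κ2 E, (if (t : ℕ) < I.u ∧ 2 * i + 1 ≤ I.rl t s.1 then 1 else 0) + I.K E ≤
      ∑ v ∈ U, ∑ s : I.κ2 E, if 2 * i + 1 ≤ I.rk v s.1 then 1 else 0 := by
  rw [sum_comm, sum_comm (s := U)]
  simp only [Fintype.sum_prod_type, sum_const, card_univ, Fintype.card_fin, smul_eq_mul,
    ← mul_sum, ← card_filter]
  rw [← Nat.mul_succ]
  refine Nat.mul_le_mul_left _ (Nat.succ_le_of_lt (sum_lt_sum (fun j _ => ?_) ⟨i, mem_univ _, ?_⟩))
  · rcases lt_trichotomy (j : ℕ) i with h | h | h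
    · rw [card_eq_zero.2 (filter_eq_empty_iff.2 fun t _ h' => ?_)]
      · exact Nat.zero_le _
      · have := h'.2; unfold rl at this; split_ifs at this <;> omega
    · obtain rfl : j = i := Fin.ext h
      refine le_trans ?_ (hi.le.trans (card_le_card fun v hv => ?_))
      · refine le_trans (card_le_card (t := {t : Fin I.m | (t : ℕ) < I.b j}) fun t ht => ?_) ?_
        · have := (mem_filter.1 ht).2.2
          refine mem_filter.2 ⟨mem_univ _, ?_⟩
          unfold rl at this; split_ifs at this <;> omega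
        · rw [Fin.card_filter_val_lt]; omega
      · refine mem_filter.2 ⟨(mem_filter.1 hv).1, ?_⟩
        unfold rk; rw [(mem_filter.1 hv).2]; rfl
    · rw [filter_true_of_mem (s := U) fun v _ => by unfold rk; omega, hU]
      exact (card_le_card fun t ht => mem_filter.2 ⟨mem_univ _, (mem_filter.1 ht).2.1⟩).trans_eq
        (card_fin_lt hu)
  · refine lt_of_le_of_lt ?_ (hi.trans_le (card_le_card fun v hv => ?_))
    · refine le_trans (card_le_card (t := {t : Fin I.m | (t : ℕ) < I.b i}) fun t ht => ?_) ?_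
      · have := (mem_filter.1 ht).2.2
        refine mem_filter.2 ⟨mem_univ _, ?_⟩
        unfold rl at this; split_ifs at this <;> omega
      · rw [Fin.card_filter_val_lt]; omega
    · refine mem_filter.2 ⟨(mem_filter.1 hv).1, ?_⟩
      unfold rk; rw [(mem_filter.1 hv).2]; rfl

open Classical in
/-- The inner level: inside one copy. -/
lemma copy_no (hg : g.Bd) (hu : I.u ≤ I.m) (hno : ¬ I.Yes 1) {d : ℕ} (h : g.No d (I.nx E)) (G : ℤ)
    (MV : Fin I.m → Finset (I.α1 E g × I.α1 E g)) (hM : ∀ v, Mat (MV v))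
    (hc : ∀ v, Fintype.card (I.α1 E g) + 1 ≤ #(MV v) + E)
    (hf : ∀ v, #{p ∈ MV v | lF (I.pos2 E) p.1 p.2} ≤ (E + 1) * I.m + E)
    (hU : I.u ≤ #{v | #{p ∈ MV v | lF (I.pos2 E) p.1 p.2} = 0})
    (hd : ∀ θ, ∑ v, ∑ p ∈ MV v, ind θ (I.x1 E g v G p.2 - I.y1 E g v G p.1) ≤
      ∑ l, ind θ (I.lam1 E g l) + I.E1 E) :
    ∃ v, #(MV v) + (d + 1) ≤ Fintype.card (I.α1 E g) := by
  obtain ⟨U, hU1, hU2⟩ := exists_subset_card_eq hU
  obtain ⟨i, hi⟩ : ∃ i : Fin I.r, I.b i < #(U.filter fun v : Fin I.m => I.A i v) := by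
    by_contra hcon
    exact hno ⟨fun _ => U, fun _ => hU2, fun i => by
      simpa using not_lt.1 fun h => hcon ⟨i, h⟩⟩
  set e : Fin I.m × I.κ2 E → ℕ := fun p => I.ex E p.1 p.2.1 p.2.2 with he
  set τ : Fin I.m × I.κ2 E → Option g.N × Option g.N → ℤ := fun k p =>
    g.x (5 * S2 g (e k)) p.2 - g.y (5 * S2 g (e k)) p.1 - S2 g (e k) with hτ
  have h1 : ∀ θ, ∑ k : Fin I.m × I.κ2 E, ∑ p ∈ res k.2 (MV k.1), ind θ (τ k p) ≤
      ∑ p : Fin I.m × I.κ2 E, ind θ (I.lab2 E g p.1 p.2.1) +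
        ∑ k : Fin I.m × I.κ2 E, ∑ l, ind θ (g.lam l - S2 g (e k)) + I.E1 E := by
    intro θ
    have a1 := hd θ
    rw [Fintype.sum_sum_type, Fintype.sum_prod_type (f := fun a => ind θ (I.lam1 E g (.inr a)))]
      at a1
    refine le_trans ?_ a1
    rw [Fintype.sum_prod_type]
    refine sum_le_sum fun v _ => le_trans (le_of_eq ?_) (sum_res_le (MV v) _)
    refine sum_congr rfl fun s _ => sum_congr rfl fun p _ => congrArg _ ?_
    simp only [hτ, he, x1, y1, lX, lY]; ring
  have hacc : ∀ v s, Fintype.card g.N + 1 + #(MV v) ≤ #(res s (MV v)) +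
      I.r * I.K E * (Fintype.card g.N + 1) + #{p ∈ MV v | lF (I.pos2 E) p.1 p.2} := fun v s => by
    have := acc (I.pos2_inj E) (hM v) s
    rwa [Fintype.card_option, Fintype.card_prod, Fintype.card_fin, Fintype.card_fin] at this
  have hα := I.card_α1 E (g := g)
  -- a slot without a pair over an inner cut
  obtain ⟨v, hv, s, hs⟩ : ∃ v ∈ U, ∃ s, ∀ p ∈ res s (MV v), ¬ g.F p.1 p.2 := by
    by_contra hcon
    push Not at hcon
    have hS : 1 ≤ S2 g ((2 * i + 1) * (I.m * I.K E)) := by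
      have := le_sc g.W g.Λ ((2 * i + 1) * (I.m * I.K E))
      have := hg.one_le
      unfold S2; omega
    have a1 := h1 (S2 g ((2 * i + 1) * (I.m * I.K E)) + 1)
    have a2 : ∑ k : Fin I.m × I.κ2 E, ∑ l, ind (S2 g ((2 * i + 1) * (I.m * I.K E)) + 1)
        (g.lam l - S2 g (e k)) = 0 := sum_eq_zero fun k _ => sum_ind_of_lt fun l _ => by
      have := (abs_le.1 (hg.lam_le l)).2
      have := le_sc g.W g.Λ (e k)
      unfold S2 at *; omega
    have a3 : ∑ p : Fin I.m × I.κ2 E, ind (S2 g ((2 * i + 1) * (I.m * I.K E)) + 1)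
        (I.lab2 E g p.1 p.2.1) ≤ ∑ t : Fin I.m, ∑ s : I.κ2 E,
        (if (t : ℕ) < I.u ∧ 2 * i + 1 ≤ I.rl t s.1 then 1 else 0) := by
      rw [Fintype.sum_prod_type]
      refine sum_le_sum fun t _ => sum_le_sum fun s _ => ?_
      split_ifs with h2
      · exact ind_le_one _ _
      · refine (ind_of_lt ?_).le
        unfold lab2
        split_ifs with h3
        · have h4 : I.rl t s.1 + 1 ≤ 2 * i + 1 := by
            by_contra h4; exact h2 ⟨h3, by omega⟩
          exact Int.lt_add_one_of_le (sc_mono _ _ (Nat.mul_le_mul_right _ h4))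
        · omega
    have a4 : ∑ v ∈ U, ∑ s : I.κ2 E, (if 2 * i + 1 ≤ I.rk v s.1 then 1 else 0) ≤
        ∑ k : Fin I.m × I.κ2 E, ∑ p ∈ res k.2 (MV k.1),
          ind (S2 g ((2 * i + 1) * (I.m * I.K E)) + 1) (τ k p) := by
      rw [Fintype.sum_prod_type]
      refine le_trans (sum_le_sum fun v hv => sum_le_sum fun s _ => ?_)
        (sum_le_sum_of_subset (subset_univ U))
      split_ifs with h2
      · obtain ⟨p, hp, hF⟩ := hcon v hv s
        refine one_le_sum_ind hp ?_
        have b1 := hg.geo.fwd (e (v, s)) hF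
        have b2 : S2 g ((2 * i + 1) * (I.m * I.K E)) ≤ S2 g (e (v, s)) :=
          sc_mono _ _ ((Nat.mul_le_mul_right _ h2).trans (Nat.le_add_right _ _))
        simp only [hτ]
        unfold S2 at *; omega
      · exact Nat.zero_le _
    have a5 := I.count_slots E hu hU2 i hi
    have a6 : I.K E = I.E1 E + 1 := rfl
    omega
  have hv0 : #{p ∈ MV v | lF (I.pos2 E) p.1 p.2} = 0 := (mem_filter.1 (hU1 hv)).2
  have hiso := isolate e (I.ex_inj E) (fun a => (g.Λ : ℤ) - S2 g a + 1)
    (fun a b hab => by have := sc_mono g.W g.Λ hab; unfold S2; dsimp only; omega)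
    (fun k θ => ∑ p ∈ res k.2 (MV k.1), ind θ (τ k p))
    (fun k θ => ∑ l, ind θ (g.lam l - S2 g (e k))) (fun k => #(res k.2 (MV k.1)))
    (I.E1 E + I.m * (I.r * I.K E)) (E + ((E + 1) * I.m + E))
    (fun k => sum_ind_anti _ _) (fun k => sum_ind_anti _ _)
    (fun k θ hθ => sum_ind_of_le fun p _ => hθ.trans (hg.geo.low hg.one_le _ _ _))
    (fun k θ hθ => sum_ind_of_lt fun l _ => by
      have := (abs_le.1 (hg.lam_le l)).2
      omega)
    (fun k θ => (sum_ind_le _ _ _).trans (by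
      have := hacc k.1 k.2
      have := hc k.1
      have := hf k.1
      rw [card_univ, hg.card]; omega))
    (fun θ => by
      have b1 := h1 θ
      have b2 := sum_ind_le univ (fun p : Fin I.m × I.κ2 E => I.lab2 E g p.1 p.2.1) θ
      simp only [card_univ, Fintype.card_prod, Fintype.card_fin] at b2
      omega) (v, s)
  have hfin := h (5 * S2 g (e (v, s))) (res s (MV v)) ((hM v).res s) hs (by
    have := hacc v s
    have := hc v
    have : E ≤ I.nx E := by unfold nx E1; omega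
    omega) fun θ => by
    have b1 := hiso (θ - S2 g (e (v, s)))
    simp only [hτ, ind_sub, sub_add_cancel, Fintype.card_prod, Fintype.card_fin] at b1
    simp only [ind_sub]
    exact b1
  have := hacc v s
  exact ⟨v, by omega⟩

open Classical in
lemma round_no (hg : g.Bd) (hu : I.u ≤ I.m) (hno : ¬ I.Yes 1) {d : ℕ} (h : g.No d (I.nx E)) :
    (I.round E g).No (d + 2) E := by
  unfold Gad.No
  rw [card_round]
  change ∀ (G : ℤ) (M : Finset (Option (I.κ1 E × I.α1 E g) × Option (I.κ1 E × I.α1 E g))),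
    Mat M → (∀ p ∈ M, ¬ lF (I.pos1 E) p.1 p.2) →
    (E + 1) * I.m * Fintype.card (I.α1 E g) + 1 ≤ #M + E →
    (∀ θ, ∑ p ∈ M, ind θ ((I.round E g).x G p.2 - (I.round E g).y G p.1) ≤
      ∑ l : I.κ1 E ⊕ (Fin (E + 1) × I.L1 E g), ind θ (I.lam2 E g l) + E) →
    #M + (d + 2) ≤ (E + 1) * I.m * Fintype.card (I.α1 E g) + 1
  intro G M hM hF' hc hd
  have hΛ := I.one_le_Λ1 E hg
  set τ : I.κ1 E → I.α1 E g × I.α1 E g → ℤ := fun V p =>
    I.x1 E g V.2 (5 * I.S1 E g V.1) p.2 - I.y1 E g V.2 (5 * I.S1 E g V.1) p.1 - I.S1 E g V.1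
    with hτ
  have h1 : ∀ θ, ∑ j, ∑ v, ∑ p ∈ res (j, v) M, ind θ (τ (j, v) p) ≤
      ∑ p : I.κ1 E, ind θ (I.lab1 E g p.2) +
        ∑ j : Fin (E + 1), ∑ l, ind θ (I.lam1 E g l - I.S1 E g j) + E := by
    intro θ
    have a1 := hd θ
    rw [Fintype.sum_sum_type, Fintype.sum_prod_type (f := fun a => ind θ (I.lam2 E g (.inr a)))]
      at a1
    refine le_trans ?_ a1
    rw [← Fintype.sum_prod_type (f := fun V : I.κ1 E => ∑ p ∈ res V M, ind θ (τ V p))]
    refine le_trans (le_of_eq ?_) (sum_res_le M _)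
    refine sum_congr rfl fun s _ => sum_congr rfl fun p _ => congrArg _ ?_
    simp only [hτ, round, lX, lY]; ring
  have hacc : ∀ V, Fintype.card (I.α1 E g) + #M ≤ #(res V M) +
      (E + 1) * I.m * Fintype.card (I.α1 E g) := fun V => by
    have := acc (I.pos1_inj E) hM V
    rwa [Fintype.card_prod, Fintype.card_fin, Fintype.card_fin,
      card_eq_zero.2 (filter_eq_empty_iff.2 hF'), add_zero] at this
  set f : I.κ1 E → ℕ := fun V => #{p ∈ res V M | lF (I.pos2 E) p.1 p.2} with hf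
  have hA : ∑ j, ∑ v, f (j, v) + (E + 1) * I.u ≤ (E + 1) * I.m + E := by
    have a1 := h1 1
    have a2 : ∑ j : Fin (E + 1), ∑ l, ind 1 (I.lam1 E g l - I.S1 E g j) = 0 :=
      sum_eq_zero fun j _ => sum_ind_of_lt fun l _ => by
        have := (abs_le.1 (I.lam1_le E hg l)).2
        have := le_sc (I.r * I.K E + 1) (I.Λ1 E g) j
        unfold S1; omega
    have a3 : ∑ p : I.κ1 E, ind 1 (I.lab1 E g p.2) ≤
        (E + 1) * #{t : Fin I.m | ¬ (t : ℕ) < I.u} := by
      rw [Fintype.sum_prod_type, card_filter]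
      refine (sum_le_card_nsmul _ _ (∑ t : Fin I.m, if ¬ (t : ℕ) < I.u then 1 else 0)
        fun j _ => sum_le_sum fun t _ => ?_).trans_eq
        (by rw [card_univ, Fintype.card_fin, smul_eq_mul])
      unfold lab1
      split_ifs
      · exact (ind_of_lt one_pos).le
      · exact ind_le_one _ _
    have a4 : ∑ j, ∑ v, f (j, v) ≤ ∑ j, ∑ v, ∑ p ∈ res (j, v) M, ind 1 (τ (j, v) p) := by
      refine sum_le_sum fun j _ => sum_le_sum fun v _ => ?_
      rw [sum_ind_eq]
      refine card_le_card fun p hp => mem_filter.2 ⟨(mem_filter.1 hp).1, ?_⟩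
      have b1 := (I.geo1 E hg v).fwd j (mem_filter.1 hp).2
      have b2 := le_sc (I.r * I.K E + 1) (I.Λ1 E g) j
      simp only [hτ]
      unfold S1; omega
    have a5 := congrArg ((E + 1) * ·) (card_fin_not_lt hu)
    simp only [mul_add] at a5
    omega
  obtain ⟨j, hj⟩ : ∃ j, I.u ≤ #{v | f (j, v) = 0} := by
    by_contra hcon
    push Not at hcon
    have a1 : ∀ j ∈ (univ : Finset (Fin (E + 1))), I.m + 1 ≤ ∑ v, f (j, v) + I.u := by
      intro j _
      have b1 := card_filter_add_card_filter_not (s := univ) fun v => f (j, v) = 0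
      have b2 : #{v | ¬ f (j, v) = 0} ≤ ∑ v, f (j, v) := by
        rw [card_filter]
        exact sum_le_sum fun v _ => by split_ifs <;> omega
      have b3 := hcon j
      rw [card_univ, Fintype.card_fin] at b1
      omega
    have a2 := sum_le_sum a1
    simp only [sum_add_distrib, sum_const, card_univ, Fintype.card_fin, smul_eq_mul, mul_one] at a2
    omega
  have hiso := isolate (fun j : Fin (E + 1) => (j : ℕ)) Fin.val_injective
    (fun a => (I.Λ1 E g : ℤ) - I.S1 E g a + 1)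
    (fun a b hab => by
      have := sc_mono (I.r * I.K E + 1) (I.Λ1 E g) hab; unfold S1; dsimp only; omega)
    (fun j θ => ∑ v, ∑ p ∈ res (j, v) M, ind θ (τ (j, v) p))
    (fun j θ => ∑ l, ind θ (I.lam1 E g l - I.S1 E g j)) (fun j => ∑ v, #(res (j, v) M))
    (E + (E + 1) * I.m) (I.m * E)
    (fun j a b hab => sum_le_sum fun v _ => sum_ind_anti _ _ hab) (fun j => sum_ind_anti _ _)
    (fun j θ hθ => sum_congr rfl fun v _ => sum_ind_of_le fun p _ =>
      hθ.trans ((I.geo1 E hg v).low hΛ _ _ _))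
    (fun j θ hθ => sum_ind_of_lt fun l _ => by
      have := (abs_le.1 (I.lam1_le E hg l)).2
      omega)
    (fun j θ => (sum_ind_le _ _ _).trans (by
      have b1 : ∀ v ∈ (univ : Finset (Fin I.m)), I.r * I.K E * (Fintype.card g.N + 1) ≤
          #(res (j, v) M) + E := fun v _ => by
        have := hacc (j, v)
        have := I.card_α1 E (g := g)
        omega
      have b2 := sum_le_sum b1
      simp only [sum_add_distrib, sum_const, card_univ, Fintype.card_fin, smul_eq_mul] at b2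
      rw [card_univ, I.card_L1 E hg]; exact b2))
    (fun θ => by
      have b1 := h1 θ
      have b2 := sum_ind_le univ (fun p : I.κ1 E => I.lab1 E g p.2) θ
      simp only [card_univ, Fintype.card_prod, Fintype.card_fin] at b2
      omega) j
  obtain ⟨v, hv⟩ := I.copy_no E hg hu hno h (5 * I.S1 E g j) (fun v => res (j, v) M)
    (fun v => hM.res _) (fun v => by have := hacc (j, v); omega)
    (fun v => by
      have b1 : f (j, v) ≤ ∑ v, f (j, v) :=
        single_le_sum (f := fun v => f (j, v)) (fun _ _ => Nat.zero_le _) (mem_univ v)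
      have b2 : ∑ v, f (j, v) ≤ ∑ j, ∑ v, f (j, v) :=
        single_le_sum (f := fun j => ∑ v, f (j, v)) (fun _ _ => Nat.zero_le _) (mem_univ j)
      change f (j, v) ≤ _
      omega) hj fun θ => by
    have b1 := hiso (θ - I.S1 E g j)
    simp only [hτ, ind_sub, sub_add_cancel, Fintype.card_fin] at b1
    simp only [ind_sub]
    exact b1
  have := hacc (j, v)
  omega

lemma tower_no (hu : I.u ≤ I.m) (hno : ¬ I.Yes 1) : ∀ h E, (I.tower h E).No (2 * h + 1) E
  | 0, E => leaf_no E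
  | h + 1, E => I.round_no E (I.tower_bd h _) hu hno (tower_no hu hno h _)

end Inst

end Crest.Agent.R318N
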