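import Crest.Agent.R318N.Top
import Crest.Prelude.Def_BinPacking

/-! Row 318: from systems of triples to bin packing. -/

set_option autoImplicit false

open Finset Crest.BinPacking

namespace Crest.Agent.R318N

/-- The size `(c + v / D) / 19`. -/
def sz19 (c : ℕ) (D : ℕ) (v : ℤ) : ℚ := (c + v / D) / 19

lemma sz19_bound {c R : ℕ} (hR : 1 ≤ R) {v : ℤ} (hv : |v| ≤ R) :
    (c - 1 / 8) / 19 ≤ sz19 c (8 * R) v ∧ sz19 c (8 * R) v ≤ (c + 1 / 8) / 19 := by
  have h0 : (0 : ℚ) < (8 * R : ℕ) := by exact_mod_cast (by omega : 0 < 8 * R)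
  have h1 : |(v : ℚ)| ≤ R := by exact_mod_cast hv
  have h2 := abs_le.1 h1
  have h3 : (v : ℚ) / (8 * R : ℕ) ≤ 1 / 8 := by
    rw [div_le_iff₀ h0]; push_cast; linarith
  have h4 : -(1 / 8) ≤ (v : ℚ) / (8 * R : ℕ) := by
    rw [le_div_iff₀ h0]; push_cast; linarith
  unfold sz19
  constructor <;> linarith

lemma sz19_sum {D : ℕ} (hD : 0 < D) (y x l : ℤ) :
    sz19 5 D (-y) + sz19 6 D x + sz19 8 D (-l) ≤ 1 ↔ x - y ≤ l := by
  have h0 : (0 : ℚ) < D := by exact_mod_cast hD
  have h1 : sz19 5 D (-y) + sz19 6 D x + sz19 8 D (-l) = 1 + ((x - y - l : ℤ) : ℚ) / (19 * D) := by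
    unfold sz19; push_cast; field_simp; ring
  rw [h1, add_le_iff_nonpos_right, div_nonpos_iff]
  constructor
  · rintro (h | h)
    · exact absurd h.2 (by linarith)
    · have : x - y - l ≤ 0 := by exact_mod_cast h.1
      omega
  · intro h
    exact Or.inr ⟨by exact_mod_cast (by omega : x - y - l ≤ 0), by linarith⟩

/-- The weight of a size. -/
def wt (q : ℚ) : ℕ := if q < 11 / 38 then 5 else if q < 7 / 19 then 6 else 8

section tri

variable {A L : Type} (y x : A → ℤ) (lam : L → ℤ) (R : ℕ)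

/-- The sizes of the items. -/
def item : A ⊕ A ⊕ L → ℚ
  | .inl a => sz19 5 (8 * R) (-y a)
  | .inr (.inl b) => sz19 6 (8 * R) (x b)
  | .inr (.inr l) => sz19 8 (8 * R) (-lam l)

/-- The classes of the items. -/
def cls : A ⊕ A ⊕ L → ℕ
  | .inl _ => 5
  | .inr (.inl _) => 6
  | .inr (.inr _) => 8

/-- All values are bounded by `R`. -/
structure Bnd : Prop where
  one_le : 1 ≤ R
  y_le : ∀ a, |y a| ≤ R
  x_le : ∀ a, |x a| ≤ R
  l_le : ∀ l, |lam l| ≤ R

variable {y x lam R}

lemma Bnd.item (h : Bnd y x lam R) (i : A ⊕ A ⊕ L) :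
    (cls i - 1 / 8) / 19 ≤ item y x lam R i ∧ item y x lam R i ≤ (cls i + 1 / 8) / 19 := by
  rcases i with a | b | l
  · exact sz19_bound h.one_le (by rw [abs_neg]; exact h.y_le a)
  · exact sz19_bound h.one_le (h.x_le b)
  · exact sz19_bound h.one_le (by rw [abs_neg]; exact h.l_le l)

lemma Bnd.range (h : Bnd y x lam R) (i : A ⊕ A ⊕ L) :
    1 / 6 < R318N.item y x lam R i ∧ R318N.item y x lam R i ≤ 1 := by
  have := h.item i
  rcases i with a | b | l <;> simp only [cls] at this <;> push_cast at this <;>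
    constructor <;> linarith [this.1, this.2]

lemma Bnd.wt (h : Bnd y x lam R) (i : A ⊕ A ⊕ L) : wt (R318N.item y x lam R i) = cls i := by
  have := h.item i
  unfold R318N.wt
  rcases i with a | b | l <;> simp only [cls] at this ⊢ <;> push_cast at this
  · rw [if_pos (by linarith [this.2])]
  · rw [if_neg (by linarith [this.1]), if_pos (by linarith [this.2])]
  · rw [if_neg (by linarith [this.1]), if_neg (by linarith [this.1])]

lemma Bnd.wt_le (h : Bnd y x lam R) (i : A ⊕ A ⊕ L) :
    39 * (cls i : ℚ) ≤ 760 * R318N.item y x lam R i := by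
  have := h.item i
  rcases i with a | b | l <;> simp only [cls] at this ⊢ <;> push_cast at this ⊢ <;>
    linarith [this.1]

lemma sum_wt_le {ι : Type} {a : ι → ℚ} {w : ι → ℕ} (h : ∀ i, 39 * (w i : ℚ) ≤ 760 * a i)
    {H : Finset ι} (hH : ∑ i ∈ H, a i ≤ 1) : ∑ i ∈ H, w i ≤ 19 := by
  have h1 := sum_le_sum (s := H) fun i _ => h i
  rw [← mul_sum, ← mul_sum, ← Nat.cast_sum] at h1
  have h2 : ((∑ i ∈ H, w i : ℕ) : ℚ) < (20 : ℕ) := by push_cast at h1 ⊢; linarith
  have h3 : ∑ i ∈ H, w i < 20 := by exact_mod_cast h2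
  omega

variable [Fintype A] [Fintype L]

lemma sum_cls (hc : Fintype.card L = Fintype.card A) :
    ∑ i : A ⊕ A ⊕ L, cls i = 19 * Fintype.card A := by
  simp only [Fintype.sum_sum_type, cls, sum_const, card_univ, smul_eq_mul, hc]; ring

lemma not_packs (h : Bnd y x lam R) (hc : Fintype.card L = Fintype.card A) {c : ℕ}
    (hno : TriNo y x lam (18 * c)) : ¬ PacksInto (item y x lam R) (Fintype.card A + c) := by
  classical
  rintro ⟨g, hg⟩
  set good : Fin (Fintype.card A + c) → Prop := fun β =>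
    (∃ a, g (.inl a) = β) ∧ (∃ b, g (.inr (.inl b)) = β) ∧ ∃ l, g (.inr (.inr l)) = β with hgood
  have h1 : ∀ β, ∑ i with g i = β, cls i ≤ 18 + if good β then 1 else 0 := fun β => by
    have a1 := sum_wt_le h.wt_le (hg β)
    split_ifs with h2
    · exact a1
    · have a2 : ∑ i with g i = β, cls i = #{a | g (.inl a) = β} * 5 +
          (#{b | g (.inr (.inl b)) = β} * 6 + #{l | g (.inr (.inr l)) = β} * 8) := by
        simp only [sum_filter, Fintype.sum_sum_type, cls]
        simp only [← sum_filter, sum_const, smul_eq_mul]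
      have a3 : #{a | g (.inl a) = β} = 0 ∨ #{b | g (.inr (.inl b)) = β} = 0 ∨
          #{l | g (.inr (.inr l)) = β} = 0 := by
        simp only [card_eq_zero, filter_eq_empty_iff, mem_univ, true_imp_iff]
        simp only [hgood, not_and_or, not_exists] at h2
        exact h2
      omega
  have h2 := sum_le_sum (s := univ) fun β _ => h1 β
  rw [sum_fiberwise, sum_cls hc, sum_add_distrib, ← card_filter, sum_const, card_univ,
    Fintype.card_fin, smul_eq_mul] at h2
  choose fa hfa using fun β : {β // good β} => β.2.1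
  choose fb hfb using fun β : {β // good β} => β.2.2.1
  choose fl hfl using fun β : {β // good β} => β.2.2.2
  have ia : Function.Injective fa := fun β β' e => Subtype.ext (by rw [← hfa, e, hfa])
  have ib : Function.Injective fb := fun β β' e => Subtype.ext (by rw [← hfb, e, hfb])
  have il : Function.Injective fl := fun β β' e => Subtype.ext (by rw [← hfl, e, hfl])
  have ip : Function.Injective fun β => (fa β, fb β) := fun β β' e => ia (congrArg Prod.fst e)
  have h3 := hno (univ.image fun β => (fa β, fb β)) ⟨fun p hp q hq e => by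
      obtain ⟨β, -, rfl⟩ := mem_image.1 hp
      obtain ⟨β', -, rfl⟩ := mem_image.1 hq
      rw [ia e], fun p hp q hq e => by
      obtain ⟨β, -, rfl⟩ := mem_image.1 hp
      obtain ⟨β', -, rfl⟩ := mem_image.1 hq
      rw [ib e]⟩ fun θ => by
    rw [sum_image ip.injOn]
    refine le_trans (sum_le_sum fun β _ => ind_mono θ (z' := lam (fl β)) ?_) ?_
    · refine (sz19_sum (D := 8 * R) (by have := h.one_le; omega) _ _ _).1 (le_trans ?_ (hg β))
      refine le_trans (le_of_eq ?_) (sum_le_sum_of_subset_of_nonneg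
        (s := {.inl (fa β), .inr (.inl (fb β)), .inr (.inr (fl β))}) (fun i hi => ?_)
        fun i _ _ => le_trans (by norm_num) (h.range i).1.le)
      · rw [sum_insert (by simp), sum_insert (by simp), sum_singleton, add_assoc]; rfl
      · simp only [mem_insert, mem_singleton] at hi
        rcases hi with rfl | rfl | rfl <;> simp [hfa, hfb, hfl]
    · rw [← sum_image (f := fun l => ind θ (lam l)) il.injOn]
      exact sum_le_sum_of_subset (subset_univ _)
  rw [card_image_of_injective _ ip, card_univ, Fintype.card_subtype] at h3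
  omega

/-- A family of patterns containing every item `d` times. -/
def Cov {ι : Type} (a : ι → ℚ) (J : Type) (d : ℕ) : Prop :=
  ∃ H : J → Finset ι, (∀ j, ∑ i ∈ H j, a i ≤ 1) ∧
    ∀ i, ∃ φ : Fin d → J, Function.Injective φ ∧ ∀ s, i ∈ H (φ s)

lemma cov_of_yes (h : Bnd y x lam R) (hc : Fintype.card L = Fintype.card A) {d : ℕ}
    (hy : TriYes y x lam d) : Cov (item y x lam R) (Fin d × A) d := by
  classical
  obtain ⟨τ, ℓ, h1, h2, h3⟩ := hy
  refine ⟨fun j => {.inl j.2, .inr (.inl (τ j.1 j.2)), .inr (.inr (ℓ j).1)}, fun j => ?_, ?_⟩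
  · rw [sum_insert (by simp), sum_insert (by simp), sum_singleton, ← add_assoc]
    exact (sz19_sum (D := 8 * R) (by have := h.one_le; omega) _ _ _).2 (h3 j.1 j.2)
  · rintro (a | b | l)
    · exact ⟨fun s => (s, a), fun _ _ e => congrArg Prod.fst e, fun s => by simp⟩
    · choose f hf using fun s => (Finite.injective_iff_surjective.1 (h1 s)) b
      exact ⟨fun s => (s, f s), fun _ _ e => congrArg Prod.fst e, fun s => by simp [hf]⟩
    · have h4 : Function.Bijective ℓ := (Fintype.bijective_iff_injective_and_card ℓ).2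
        ⟨h2, by simp [hc, mul_comm]⟩
      choose f hf using fun s => h4.2 (l, s)
      refine ⟨f, fun s s' e => ?_, fun s => by simp [hf]⟩
      have := hf s
      rw [e, hf] at this
      exact (congrArg Prod.snd this).symm

end tri

lemma packs_of_cov {ι J : Type} [Fintype ι] [Fintype J] {a : ι → ℚ} (h0 : ∀ i, 0 ≤ a i)
    (h : Cov a J 1) : PacksInto a (Fintype.card J) := by
  classical
  obtain ⟨H, h1, h2⟩ := h
  choose φ _ hφ using h2
  refine ⟨fun i => Fintype.equivFin J (φ i 0), fun β => le_trans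
    (sum_le_sum_of_subset_of_nonneg (fun i hi => ?_) fun i _ _ => h0 i)
    (h1 ((Fintype.equivFin J).symm β))⟩
  rw [← (mem_filter.1 hi).2, Equiv.symm_apply_apply]
  exact hφ i 0

lemma packs_congr {ι ι' : Type} [Fintype ι] [Fintype ι'] (e : ι ≃ ι') {a : ι → ℚ} {a' : ι' → ℚ}
    (h : ∀ i, a i = a' (e i)) {B : ℕ} (hp : PacksInto a' B) : PacksInto a B := by
  obtain ⟨g, hg⟩ := hp
  refine ⟨fun i => g (e i), fun β => le_trans (le_of_eq ?_) (hg β)⟩
  exact sum_equiv e (by simp) fun i _ => h i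

lemma Cov.congr {ι ι' J : Type} (e : ι ≃ ι') {a : ι → ℚ} {a' : ι' → ℚ}
    (h : ∀ i, a i = a' (e i)) {d : ℕ} (hp : Cov a' J d) : Cov a J d := by
  obtain ⟨H, h1, h2⟩ := hp
  refine ⟨fun j => (H j).map e.symm.toEmbedding, fun j => ?_, fun i => ?_⟩
  · rw [sum_map]
    simpa [h] using h1 j
  · obtain ⟨φ, h3, h4⟩ := h2 (e i)
    exact ⟨φ, h3, fun s => by simpa using h4 s⟩

end Crest.Agent.R318N
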