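import Crest.Agent.R318N.Level

/-! Row 318: one round (two levels) of the construction: definitions and bounds. -/

set_option autoImplicit false

open Finset

namespace Crest.Agent.R318N

/-- A selection problem: choose `u` of `m` elements, at most `b i` of them in the set `A i`. -/
structure Inst where
  /-- number of elements -/
  m : ℕ
  /-- number of elements to be chosen -/
  u : ℕ
  /-- number of constraints -/
  r : ℕ
  /-- the sets -/
  A : ℕ → ℕ → Bool
  /-- the capacities -/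
  b : ℕ → ℕ

/-- `d` selections obeying the constraints on average. -/
def Inst.Yes (I : Inst) (d : ℕ) : Prop :=
  ∃ U : Fin d → Finset (Fin I.m), (∀ s, #(U s) = I.u) ∧
    ∀ i : Fin I.r, ∑ s, #((U s).filter fun v : Fin I.m => I.A i v) ≤ d * I.b i

/-- A cluster: nodes below a root, their end points, labels. -/
structure Gad where
  /-- the nodes other than the root -/
  N : Type
  /-- the labels -/
  L : Type
  [fN : Fintype N]
  [fL : Fintype L]
  /-- left end points -/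
  y : ℤ → Option N → ℤ
  /-- right end points -/
  x : ℤ → Option N → ℤ
  /-- levels of the labels -/
  lam : L → ℤ
  /-- pairs over an inner cut -/
  F : Option N → Option N → Prop
  /-- width -/
  W : ℕ
  /-- inner scale -/
  Λ : ℕ

attribute [instance] Gad.fN Gad.fL

/-- Bounds. -/
structure Gad.Bd (g : Gad) : Prop where
  one_le : 1 ≤ g.Λ
  card : Fintype.card g.L = Fintype.card g.N
  geo : Geo g.y g.x g.F g.W g.Λ
  lam_le : ∀ l, |g.lam l| ≤ g.Λ

/-- Every matching obeying the labels up to slack `E` misses `d` items. -/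
def Gad.No (g : Gad) (d E : ℕ) : Prop :=
  ∀ (G : ℤ) (M : Finset (Option g.N × Option g.N)), Mat M → (∀ p ∈ M, ¬ g.F p.1 p.2) →
    Fintype.card g.N + 1 ≤ #M + E →
    (∀ θ, ∑ p ∈ M, ind θ (g.x G p.2 - g.y G p.1) ≤ ∑ l, ind θ (g.lam l) + E) →
    #M + d ≤ Fintype.card g.N + 1

/-- `d` sheets of solutions with `h` colours. -/
def Gad.Yes (g : Gad) (d h : ℕ) : Prop :=
  ∃ (lv : Fin d → g.N → ℤ) (col : Fin d → g.N → ℕ), (∀ s n, |lv s n| ≤ g.Λ) ∧
    (∀ s n, col s n ≤ h) ∧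
    (∀ s (G : ℤ), 5 * (g.Λ : ℤ) ≤ G →
      OK (fun n => g.y G (some n)) (fun n => g.x G (some n)) (lv s) (col s)) ∧
    ∀ θ, ∑ s, ∑ n, ind θ (lv s n) ≤ d * ∑ l, ind θ (g.lam l)

/-- The leaf. -/
def leaf : Gad where
  N := Empty
  L := Empty
  y := fun _ _ => 0
  x := fun G _ => G
  lam := fun _ => 0
  F := fun _ _ => True
  W := 1
  Λ := 1

lemma leaf_bd : leaf.Bd := by
  refine ⟨le_rfl, rfl, fun G hG => ⟨fun n => ?_, fun n => ?_, fun a b _ => ?_⟩, fun l => l.elim⟩
  · simp only [leaf, abs_zero]; positivity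
  · simp only [leaf, abs_of_nonneg hG]; omega
  · simp only [leaf]; omega

lemma leaf_no (E : ℕ) : leaf.No 1 E := by
  intro G M _ h _ _
  have : M = ∅ := eq_empty_of_forall_notMem fun p hp => h p hp trivial
  simp [this]

lemma leaf_yes (d : ℕ) : leaf.Yes d 0 :=
  ⟨fun _ n => n.elim, fun _ n => n.elim, fun _ n => n.elim, fun _ n => n.elim,
    fun _ _ _ => ⟨fun n => n.elim, fun n => n.elim⟩, fun θ => by
      have : IsEmpty leaf.N := inferInstanceAs (IsEmpty Empty)
      simp⟩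

namespace Inst

variable (I : Inst) (E : ℕ)

/-- slack inside a copy -/
def E1 : ℕ := E + (E + 1) * I.m + (E + 1) * (I.m * E)

/-- size of the groups of slots -/
def K : ℕ := I.E1 E + 1

/-- slack inside a slot -/
def nx : ℕ := I.E1 E + I.m * (I.r * I.K E) + I.m * (I.r * I.K E) * (E + ((E + 1) * I.m + E))

/-- band of a slot -/
def rk (v i : ℕ) : ℕ := 2 * i + (I.A i v).toNat

/-- band of a label -/
def rl (t i : ℕ) : ℕ := 2 * i + if t < I.b i then 1 else 0

/-- exponent of a slot -/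
def ex (v i k : ℕ) : ℕ := I.rk v i * (I.m * I.K E) + (v * I.K E + k)

/-- bound for the exponents -/
def em : ℕ := 2 * I.r * (I.m * I.K E)

/-- slots of a vertex -/
abbrev κ2 : Type := Fin I.r × Fin (I.K E)

/-- vertices -/
abbrev κ1 : Type := Fin (E + 1) × Fin I.m

/-- position of a slot -/
def pos2 (s : I.κ2 E) : ℕ := s.1 * I.K E + s.2

/-- position of a vertex -/
def pos1 (V : I.κ1 E) : ℕ := V.1 * I.m + V.2

lemma pos2_lt (s : I.κ2 E) : I.pos2 E s < I.r * I.K E := mul_add_lt s.1.2 s.2.2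

lemma pos1_lt (V : I.κ1 E) : I.pos1 E V < (E + 1) * I.m := mul_add_lt V.1.2 V.2.2

lemma pos2_inj : Function.Injective (I.pos2 E) := fun s s' h => by
  have := mul_add_inj s.2.2 s'.2.2 h
  exact Prod.ext (Fin.ext this.1) (Fin.ext this.2)

lemma pos1_inj : Function.Injective (I.pos1 E) := fun s s' h => by
  have := mul_add_inj s.2.2 s'.2.2 h
  exact Prod.ext (Fin.ext this.1) (Fin.ext this.2)

lemma rk_lt (v : ℕ) (i : Fin I.r) : I.rk v i < 2 * I.r := by
  have := i.2
  have := Bool.toNat_le (I.A i v)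
  unfold rk; omega

lemma rl_lt (t : ℕ) (i : Fin I.r) : I.rl t i < 2 * I.r := by
  have := i.2
  unfold rl; split_ifs <;> omega

lemma ex_lt (v : Fin I.m) (s : I.κ2 E) : I.ex E v s.1 s.2 < (I.rk v s.1 + 1) * (I.m * I.K E) :=
  mul_add_lt (Nat.lt_succ_self _) (mul_add_lt v.2 s.2.2)

lemma ex_lt_em (v : Fin I.m) (s : I.κ2 E) : I.ex E v s.1 s.2 < I.em E :=
  mul_add_lt (I.rk_lt v s.1) (mul_add_lt v.2 s.2.2)

lemma ex_inj : Function.Injective fun p : Fin I.m × I.κ2 E => I.ex E p.1 p.2.1 p.2.2 := by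
  rintro ⟨v, i, k⟩ ⟨v', i', k'⟩ h
  obtain ⟨h1, h2⟩ := mul_add_inj (mul_add_lt v.2 k.2) (mul_add_lt v'.2 k'.2) h
  obtain ⟨h3, h4⟩ := mul_add_inj k.2 k'.2 h2
  have h5 := Bool.toNat_le (I.A i v)
  have h6 := Bool.toNat_le (I.A i' v')
  simp only [rk] at h1
  exact Prod.ext (Fin.ext h3) (Prod.ext (Fin.ext (by dsimp only; omega)) (Fin.ext h4))

variable (g : Gad)

/-- scales of the slots -/
def S2 (e : ℕ) : ℤ := (sc g.W g.Λ e : ℕ)

/-- a vertex with its slots -/
abbrev α1 : Type := Option (I.κ2 E × Option g.N)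

/-- left end points in a vertex -/
def y1 (v : ℕ) (G : ℤ) : I.α1 E g → ℤ :=
  lY (I.pos2 E) (fun s n => g.y (5 * S2 g (I.ex E v s.1 s.2)) n) G

/-- right end points in a vertex -/
def x1 (v : ℕ) (G : ℤ) : I.α1 E g → ℤ :=
  lX (I.r * I.K E) (I.pos2 E)
    (fun s n => g.x (5 * S2 g (I.ex E v s.1 s.2)) n - S2 g (I.ex E v s.1 s.2)) G

/-- inner scale of a vertex -/
def Λ1 : ℕ := sc g.W g.Λ (I.em E)

/-- labels of a copy -/
abbrev L1 : Type := (Fin I.m × I.κ2 E) ⊕ ((Fin I.m × I.κ2 E) × g.L)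

/-- level of a slot label -/
def lab2 (t i : ℕ) : ℤ := if t < I.u then S2 g ((I.rl t i + 1) * (I.m * I.K E)) else 0

/-- levels of the labels of a copy -/
def lam1 : I.L1 E g → ℤ
  | .inl p => I.lab2 E g p.1 p.2.1
  | .inr p => g.lam p.2 - S2 g (I.ex E p.1.1 p.1.2.1 p.1.2.2)

/-- scales of the copies -/
def S1 (j : ℕ) : ℤ := (sc (I.r * I.K E + 1) (I.Λ1 E g) j : ℕ)

/-- level of a vertex label -/
def lab1 (t : ℕ) : ℤ := if t < I.u then 0 else I.S1 E g (E + 1)

/-- levels of the labels of the round -/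
def lam2 : I.κ1 E ⊕ (Fin (E + 1) × I.L1 E g) → ℤ
  | .inl p => I.lab1 E g p.2
  | .inr p => I.lam1 E g p.2 - I.S1 E g p.1

/-- One round. -/
def round : Gad where
  N := I.κ1 E × I.α1 E g
  L := I.κ1 E ⊕ (Fin (E + 1) × I.L1 E g)
  y := lY (I.pos1 E) fun V n => I.y1 E g V.2 (5 * I.S1 E g V.1) n
  x := lX ((E + 1) * I.m) (I.pos1 E) fun V n => I.x1 E g V.2 (5 * I.S1 E g V.1) n - I.S1 E g V.1
  lam := I.lam2 E g
  F := lF (I.pos1 E)
  W := (E + 1) * I.m + 1
  Λ := sc (I.r * I.K E + 1) (I.Λ1 E g) (E + 1)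

variable {g}

lemma one_le_Λ1 (hg : g.Bd) : 1 ≤ I.Λ1 E g := by
  have := le_sc g.W g.Λ (I.em E)
  have := hg.one_le
  unfold Λ1; omega

lemma geo1 (hg : g.Bd) (v : Fin I.m) :
    Geo (I.y1 E g v) (I.x1 E g v) (lF (I.pos2 E)) (I.r * I.K E + 1) (I.Λ1 E g) :=
  geo_level (I.pos2_lt E) (fun s n => hg.geo.y_le' (I.ex_lt_em E v s) n)
    fun s n => hg.geo.x_le' (I.ex_lt_em E v s) n

lemma S2_nonneg (g : Gad) (e : ℕ) : 0 ≤ S2 g e := Int.natCast_nonneg _

lemma S1_nonneg (g : Gad) (e : ℕ) : 0 ≤ I.S1 E g e := Int.natCast_nonneg _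

lemma S2_le (g : Gad) {a : ℕ} (ha : a < 2 * I.r) : S2 g ((a + 1) * (I.m * I.K E)) ≤ I.Λ1 E g :=
  sc_mono _ _ (Nat.mul_le_mul_right _ ha)

lemma lam1_le (hg : g.Bd) (l : I.L1 E g) : |I.lam1 E g l| ≤ I.Λ1 E g := by
  rcases l with p | p
  · simp only [lam1, lab2]
    split_ifs
    · rw [abs_of_nonneg (S2_nonneg _ _)]; exact I.S2_le E g (I.rl_lt _ _)
    · simp
  · exact lab_le' (hg.lam_le _) (I.ex_lt_em E _ _)

lemma card_α1 : Fintype.card (I.α1 E g) = I.r * I.K E * (Fintype.card g.N + 1) + 1 := by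
  simp [Fintype.card_option, Fintype.card_prod]

lemma card_L1 (hg : g.Bd) :
    Fintype.card (I.L1 E g) = I.m * (I.r * I.K E * (Fintype.card g.N + 1)) := by
  simp only [Fintype.card_sum, Fintype.card_prod, Fintype.card_fin, hg.card]; ring

lemma card_round : Fintype.card (I.round E g).N = (E + 1) * I.m * Fintype.card (I.α1 E g) := by
  change Fintype.card (I.κ1 E × I.α1 E g) = _
  simp only [Fintype.card_prod, Fintype.card_fin]

lemma round_bd (hg : g.Bd) : (I.round E g).Bd := by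
  refine ⟨?_, ?_, ?_, fun l => ?_⟩
  · have := le_sc (I.r * I.K E + 1) (I.Λ1 E g) (E + 1)
    have := I.one_le_Λ1 E hg
    change 1 ≤ sc _ _ _
    omega
  · rw [card_round, card_α1]
    change Fintype.card (I.κ1 E ⊕ (Fin (E + 1) × I.L1 E g)) = _
    rw [Fintype.card_sum, Fintype.card_prod, Fintype.card_prod, I.card_L1 E hg]
    simp only [Fintype.card_fin]; ring
  · exact geo_level (I.pos1_lt E) (fun V n => (I.geo1 E hg V.2).y_le' V.1.2 n)
      fun V n => (I.geo1 E hg V.2).x_le' V.1.2 n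
  · rcases l with p | p
    · simp only [round, lam2, lab1]
      split_ifs
      · simp
      · rw [abs_of_nonneg (I.S1_nonneg E _ _)]; exact le_rfl
    · exact lab_le' (I.lam1_le E hg _) p.1.2

/-- The tower of rounds. -/
def tower : ℕ → ℕ → Gad
  | 0, _ => leaf
  | h + 1, E => I.round E (tower h (I.nx E))

lemma tower_bd : ∀ h E, (I.tower h E).Bd
  | 0, _ => leaf_bd
  | h + 1, E => I.round_bd E (tower_bd h _)

end Inst

end Crest.Agent.R318N
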