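import Crest.Agent.R318N.Lists
import Crest.Agent.Lib.PT.CookLevin.Main

/-! Row 318: satisfiability as a selection problem. -/

set_option autoImplicit false

open Finset

namespace Crest.Agent.R318N

open Crest.Agent.Lib.PT Crest.Agent.Lib.PT.CookLevin Crest.Enc

/-- The selection problem of a formula: choose the true literals. -/
def satInst (N : ℕ) (F : Raw) : Inst :=
  ⟨2 * N, N, N + F.length,
    fun i v => if i < N then v / 2 == i else !(F.getD (i - N) []).contains (v / 2, v % 2 == 1),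
    fun i => if i < N then 1 else N - 1⟩

lemma satInst_yes {N : ℕ} {F : Raw} (hF : ∀ c ∈ F, c ≠ [] ∧ ∀ l ∈ c, l.1 < N) :
    (∃ σ, RawSat σ F) ↔ (satInst N F).Yes 1 := by
  classical
  constructor
  · rintro ⟨σ, hσ⟩
    let φ : Fin N → Fin (2 * N) := fun k => ⟨2 * k + (σ k).toNat, by
      have := k.2; have := Bool.toNat_le (σ k); omega⟩
    have h1 : ∀ k, (φ k : ℕ) / 2 = k := fun k => by
      have := Bool.toNat_le (σ k); simp only [φ]; omega
    have h2 : ∀ k, ((φ k : ℕ) % 2 == 1) = σ k := fun k => by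
      simp only [φ]; cases σ k <;> simp
    have hφ : Function.Injective φ := fun k k' e => Fin.ext (by rw [← h1, e, h1])
    have hU : #(univ.image φ) = N := by rw [card_image_of_injective _ hφ]; simp
    refine ⟨fun _ => univ.image φ, fun _ => hU, fun i => ?_⟩
    rw [Fin.sum_univ_one, one_mul]
    change #((univ.image φ).filter fun v : Fin (2 * N) => (satInst N F).A i v) ≤ _
    simp only [satInst]
    split_ifs with hi
    · refine card_le_one.2 fun v hv v' hv' => ?_
      obtain ⟨k, -, rfl⟩ := mem_image.1 (mem_filter.1 hv).1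
      obtain ⟨k', -, rfl⟩ := mem_image.1 (mem_filter.1 hv').1
      have a1 := (mem_filter.1 hv).2
      have a2 := (mem_filter.1 hv').2
      rw [h1, beq_iff_eq] at a1 a2
      rw [Fin.ext (a1.trans a2.symm)]
    · have hi2 : (i : ℕ) - N < F.length := by have : (i : ℕ) < N + F.length := i.2; omega
      rw [List.getD_eq_getElem _ _ hi2]
      obtain ⟨l, hl, hl2⟩ := hσ _ (List.getElem_mem hi2)
      have hlN := (hF _ (List.getElem_mem hi2)).2 l hl
      refine Nat.le_sub_one_of_lt (lt_of_lt_of_eq (card_lt_card ?_) hU)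
      refine filter_ssubset.2 ⟨φ ⟨l.1, hlN⟩, mem_image_of_mem _ (mem_univ _), ?_⟩
      rw [h1, h2, hl2]
      simpa using hl
  · rintro ⟨U, h1, h2⟩
    obtain ⟨V, hV1, hV2⟩ : ∃ V : Finset (Fin (2 * N)), #V = N ∧ ∀ i < N + F.length,
        #(V.filter fun v : Fin (2 * N) => (satInst N F).A i v) ≤ (satInst N F).b i :=
      ⟨U 0, h1 0, fun i hi => ((Fin.sum_univ_one _).symm.trans_le (h2 ⟨i, hi⟩)).trans_eq
        (one_mul _)⟩
    refine ⟨fun k => decide (∃ v ∈ V, (v : ℕ) = 2 * k + 1), fun c hc => ?_⟩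
    obtain ⟨j, hj, rfl⟩ := List.getElem_of_mem hc
    have a1 := hV2 (N + j) (by omega)
    simp only [satInst, if_neg (show ¬ N + j < N by omega), Nat.add_sub_cancel_left,
      List.getD_eq_getElem _ _ hj] at a1
    obtain ⟨l, hl⟩ := List.exists_mem_of_ne_nil _ (hF _ hc).1
    have hN := (hF _ hc).2 l hl
    obtain ⟨v, hv, hv2⟩ : ∃ v ∈ V, ((v : ℕ) / 2, (v : ℕ) % 2 == 1) ∈ F[j] := by
      by_contra hcon
      rw [filter_true_of_mem fun v hv => by simpa using fun h => hcon ⟨v, hv, h⟩] at a1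
      omega
    refine ⟨_, hv2, ?_⟩
    dsimp only
    rcases Nat.mod_two_eq_zero_or_one v with h3 | h3
    · rw [h3]
      refine decide_eq_false ?_
      rintro ⟨v', hv', h4⟩
      have hvN : (v : ℕ) / 2 < N := by have := v.2; omega
      have a2 := hV2 (v / 2) (by omega)
      simp only [satInst, if_pos hvN] at a2
      have := card_le_one.1 a2 v (mem_filter.2 ⟨hv, by simp⟩) v'
        (mem_filter.2 ⟨hv', by rw [beq_iff_eq]; omega⟩)
      rw [this] at h3 h4
      omega
    · rw [h3]
      exact decide_eq_true ⟨v, hv, by omega⟩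

theorem exists_fam {A : Set (List Bool)} (hA : Crest.Complexity.InNP A) :
    ∃ Φ : Fam (List Bool), (∀ x, Φ.u x ≤ Φ.m x) ∧ ∀ x, x ∈ A ↔ (Φ.I x).Yes 1 := by
  obtain ⟨N, F, h1, h2, h3, h4, h5⟩ := cookLevin_raw hA
  refine ⟨⟨fun x => 2 * N x, N, fun x => N x + (F x).length,
    fun p => (satInst (N p.1) (F p.1)).A p.2.1 p.2.2, fun p => (satInst (N p.1) (F p.1)).b p.2,
    by fun_prop, by fun_prop, h1, by fun_prop, by fun_prop, by simp only [satInst]; fun_prop,
    by simp only [satInst]; fun_prop⟩, fun x => by dsimp only; omega, fun x => ?_⟩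
  rw [h5]
  exact satInst_yes fun c hc => ⟨(h4 x c hc).1, (h4 x c hc).2.2⟩

lemma polyTime_code {sizes : List Bool → List ℚ} {B : List Bool → ℕ} (h1 : PT sizes) (h2 : PT B) :
    Crest.Complexity.PolyTime fun x =>
      natCode (sizes x).length ++ ((sizes x).map ratCode).flatten ++ natCode (B x) :=
  PT.polyTime (((pt_natCode h1.length).append (PT.flatten (PT.map h1 (by fun_prop)))).append
    (pt_natCode h2))

end Crest.Agent.R318N
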