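import Crest.Agent.R318N.Yes

/-! Row 318: closing up the tower: systems of triples. -/

set_option autoImplicit false

open Finset

namespace Crest.Agent.R318N

/-- Matchings obeying the labels miss more than `ρ` items. -/
def TriNo {A L : Type} [Fintype A] [Fintype L] (y x : A → ℤ) (lam : L → ℤ) (ρ : ℕ) : Prop :=
  ∀ M : Finset (A × A), Mat M →
    (∀ θ, ∑ p ∈ M, ind θ (x p.2 - y p.1) ≤ ∑ l, ind θ (lam l)) → #M + ρ < Fintype.card A

/-- `d` sheets of perfect matchings using every label `d` times. -/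
def TriYes {A L : Type} (y x : A → ℤ) (lam : L → ℤ) (d : ℕ) : Prop :=
  ∃ (τ : Fin d → A → A) (ℓ : Fin d × A → L × Fin d), (∀ s, Function.Injective (τ s)) ∧
    Function.Injective ℓ ∧ ∀ s a, x (τ s a) - y a ≤ lam (ℓ (s, a)).1

/-- Chains of nodes of one colour. -/
lemma exists_chain {β : Type} [Fintype β] (key : β → ℤ) (col : β → ℕ) (h : ℕ) (hc : ∀ n, col n ≤ h) :
    ∃ τ : β ⊕ Fin h → β ⊕ Fin h, Function.Injective τ ∧ ∀ n n', τ (.inl n) = .inl n' →
      (col n = 0 ∧ n' = n) ∨ (n' ≠ n ∧ col n ≠ 0 ∧ col n' = col n ∧ key n' ≤ key n) := by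
  classical
  have := (Fintype.all_card_le_filter_rel_iff_exists_injective (fun a b : β ⊕ Fin h =>
    ∀ n n', a = .inl n → b = .inl n' → (col n = 0 ∧ n' = n) ∨
      (n' ≠ n ∧ col n ≠ 0 ∧ col n' = col n ∧ key n' ≤ key n))).1 ?_
  · obtain ⟨τ, h1, h2⟩ := this
    exact ⟨τ, h1, fun n n' e => h2 _ n n' rfl e⟩
  intro S
  by_cases h1 : ∃ t, Sum.inr t ∈ S
  · obtain ⟨t, ht⟩ := h1
    exact card_le_card fun b _ => mem_filter.2 ⟨mem_univ _, _, ht, fun _ _ e => by cases e⟩
  rcases S.eq_empty_or_nonempty with rfl | ⟨a₀, ha₀⟩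
  · simp
  set S' : Finset β := {n | Sum.inl n ∈ S}
  set T : Finset β := {n ∈ S' | col n ≠ 0 ∧ ¬ ∃ n₂ ∈ S', n₂ ≠ n ∧ col n₂ = col n ∧ key n ≤ key n₂}
  have h2 : #S ≤ #S' := by
    refine le_trans (card_le_card (t := S'.image Sum.inl) fun a ha => ?_) card_image_le
    rcases a with n | t
    · exact mem_image_of_mem _ (by simpa [S'] using ha)
    · exact absurd ⟨t, ha⟩ h1
  have h3 : #T ≤ h := by
    refine (card_le_card_of_injOn (t := Icc 1 h) col (fun n hn => ?_) fun n hn n' hn' e => ?_).trans_eq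
      (by simp)
    · have := (mem_filter.1 hn).2.1
      have := hc n
      simp only [coe_Icc, Set.mem_Icc]; omega
    · by_contra hne
      rcases le_total (key n) (key n') with h4 | h4
      · exact (mem_filter.1 hn).2.2 ⟨n', (mem_filter.1 hn').1, Ne.symm hne, e.symm, h4⟩
      · exact (mem_filter.1 hn').2.2 ⟨n, (mem_filter.1 hn).1, hne, e, h4⟩
  have h4 : #((S' \ T).disjSum (univ : Finset (Fin h))) = #(S' \ T) + h := by simp
  have h5 := le_card_sdiff T S'
  refine le_trans (by omega) (card_le_card (s := (S' \ T).disjSum univ) fun b hb => ?_)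
  refine mem_filter.2 ⟨mem_univ _, ?_⟩
  rcases b with n | t
  · obtain ⟨hn1, hn2⟩ := mem_sdiff.1 (inl_mem_disjSum.1 hb)
    by_cases h6 : col n = 0
    · refine ⟨.inl n, (mem_filter.1 hn1).2, fun _ _ e e' => ?_⟩
      cases e; cases e'
      exact Or.inl ⟨h6, rfl⟩
    · obtain ⟨n₂, a1, a2, a3, a4⟩ : ∃ n₂ ∈ S', n₂ ≠ n ∧ col n₂ = col n ∧ key n ≤ key n₂ := by
        by_contra hcon
        exact hn2 (mem_filter.2 ⟨hn1, h6, hcon⟩)
      refine ⟨.inl n₂, (mem_filter.1 a1).2, fun _ _ e e' => ?_⟩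
      cases e; cases e'
      exact Or.inr ⟨a2.symm, a3 ▸ h6, a3.symm, a4⟩
  · exact ⟨a₀, ha₀, fun _ _ _ e => by cases e⟩

namespace Gad

variable (g : Gad) (h : ℕ)

/-- bound for the end points -/
def R : ℕ := g.W * (5 * g.Λ) + g.Λ

/-- left end points -/
def tY : Option g.N ⊕ Fin h → ℤ
  | .inl n => g.y (5 * g.Λ) n
  | .inr _ => 3 * g.R

/-- right end points -/
def tX : Option g.N ⊕ Fin h → ℤ
  | .inl n => g.x (5 * g.Λ) n
  | .inr _ => -(3 * g.R)

/-- labels -/
def tL : Option g.L ⊕ Fin h → ℤ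
  | .inl none => 2 * g.R
  | .inl (some l) => g.lam l
  | .inr _ => 0

variable {g}

lemma Bd.y_le_R (hg : g.Bd) (n : Option g.N) : |g.y (5 * g.Λ) n| ≤ g.R := by
  have := (hg.geo (5 * g.Λ) (by positivity)).1 n
  unfold R; push_cast; exact this

lemma Bd.x_le_R (hg : g.Bd) (n : Option g.N) : |g.x (5 * g.Λ) n| ≤ g.R := by
  have := (hg.geo (5 * g.Λ) (by positivity)).2.1 n
  unfold R; push_cast; exact this

lemma le_R (g : Gad) : g.Λ ≤ g.R := Nat.le_add_left _ _

lemma Bd.tY_le (hg : g.Bd) (a : Option g.N ⊕ Fin h) : |g.tY h a| ≤ (3 * g.R : ℕ) := by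
  rcases a with n | t
  · have := hg.y_le_R n
    simp only [tY]; omega
  · simp only [tY]; rw [abs_le]; omega

lemma Bd.tX_le (hg : g.Bd) (a : Option g.N ⊕ Fin h) : |g.tX h a| ≤ (3 * g.R : ℕ) := by
  rcases a with n | t
  · have := hg.x_le_R n
    simp only [tX]; omega
  · simp only [tX]; rw [abs_le]; omega

lemma Bd.tL_le (hg : g.Bd) (a : Option g.L ⊕ Fin h) : |g.tL h a| ≤ (3 * g.R : ℕ) := by
  rcases a with (_ | l) | t
  · simp only [tL]; rw [abs_le]; omega
  · have := hg.lam_le l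
    have := g.le_R
    simp only [tL]; omega
  · simp only [tL]; rw [abs_le]; omega

lemma Bd.card_eq (hg : g.Bd) :
    Fintype.card (Option g.L ⊕ Fin h) = Fintype.card (Option g.N ⊕ Fin h) := by
  simp [hg.card]

lemma top_no (hg : g.Bd) {ρ : ℕ} (hno : g.No (2 * (ρ + 1) + 1) (2 * ρ + 2)) :
    TriNo (g.tY (ρ + 1)) (g.tX (ρ + 1)) (g.tL (ρ + 1)) ρ := by
  classical
  intro M hM hd
  by_contra hcon
  simp only [Fintype.card_sum, Fintype.card_option, Fintype.card_fin] at hcon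
  set ι : Option g.N × Option g.N → (Option g.N ⊕ Fin (ρ + 1)) × (Option g.N ⊕ Fin (ρ + 1)) :=
    fun p => (.inl p.1, .inl p.2) with hι
  have hinj : Function.Injective ι := fun p q e => by
    simp only [hι, Prod.mk.injEq, Sum.inl.injEq] at e
    exact Prod.ext e.1 e.2
  set M1 : Finset (Option g.N × Option g.N) := {p | ι p ∈ M}
  have hM1 : ∀ p ∈ M1, ι p ∈ M := fun p hp => (mem_filter.1 hp).2
  have h1 : ∀ θ, ∑ p ∈ M1, ind θ (g.x (5 * g.Λ) p.2 - g.y (5 * g.Λ) p.1) ≤
      ind θ (2 * g.R) + ∑ l, ind θ (g.lam l) + (ρ + 1) * ind θ 0 := fun θ => by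
    have := hd θ
    simp only [Fintype.sum_sum_type, Fintype.sum_option, tL, sum_const, card_univ,
      Fintype.card_fin, smul_eq_mul] at this
    refine le_trans ?_ this
    exact (sum_image (f := fun p => ind θ (g.tX (ρ + 1) p.2 - g.tY (ρ + 1) p.1))
      hinj.injOn).symm.trans_le (sum_le_sum_of_subset fun q hq => by
        obtain ⟨p, hp, rfl⟩ := mem_image.1 hq; exact hM1 p hp)
  have h2 : #M ≤ #M1 + (ρ + 1) + (ρ + 1) := by
    have a0 : M ⊆ M1.image ι ∪ {p ∈ M | p.1 ∈ univ.image Sum.inr} ∪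
        {p ∈ M | p.2 ∈ univ.image Sum.inr} := by
      rintro ⟨a | a, b | b⟩ hp
      · exact mem_union_left _ (mem_union_left _ (mem_image.2 ⟨(a, b), by simpa [M1] using hp, rfl⟩))
      all_goals simp [hp]
    have a1 : #{p ∈ M | p.1 ∈ univ.image Sum.inr} ≤ ρ + 1 :=
      (card_le_card_of_injOn Prod.fst (fun p hp => (mem_filter.1 hp).2) fun p hp q hq e =>
        hM.1 p (mem_filter.1 hp).1 q (mem_filter.1 hq).1 e).trans (card_image_le.trans_eq (by simp))
    have a2 : #{p ∈ M | p.2 ∈ univ.image Sum.inr} ≤ ρ + 1 :=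
      (card_le_card_of_injOn Prod.snd (fun p hp => (mem_filter.1 hp).2) fun p hp q hq e =>
        hM.2 p (mem_filter.1 hp).1 q (mem_filter.1 hq).1 e).trans (card_image_le.trans_eq (by simp))
    have a3 := (card_le_card a0).trans ((card_union_le _ _).trans
      (Nat.add_le_add_right (card_union_le _ _) _))
    have a4 : #(M1.image ι) ≤ #M1 := card_image_le
    omega
  have h3 : #{p ∈ M1 | g.F p.1 p.2} ≤ 1 := by
    have a1 := h1 (g.Λ + 1)
    have a2 := ind_le_one (g.Λ + 1) (2 * g.R)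
    rw [sum_ind_of_lt (s := univ) (f := g.lam) fun l _ => by
      have := (abs_le.1 (hg.lam_le l)).2; omega, ind_of_lt (z := 0) (by omega), sum_ind_eq] at a1
    refine le_trans (card_le_card fun p hp => mem_filter.2 ⟨(mem_filter.1 hp).1, ?_⟩)
      (a1.trans (by omega))
    have := (hg.geo (5 * g.Λ) (by positivity)).2.2 _ _ (mem_filter.1 hp).2
    have := hg.one_le
    omega
  have h4 := card_filter_add_card_filter_not (s := M1) fun p => g.F p.1 p.2
  have h5 := hno (5 * g.Λ) {p ∈ M1 | ¬ g.F p.1 p.2}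
    ⟨fun p hp q hq e => hinj (hM.1 _ (hM1 p (mem_filter.1 hp).1) _ (hM1 q (mem_filter.1 hq).1)
        (congrArg Sum.inl e)),
      fun p hp q hq e => hinj (hM.2 _ (hM1 p (mem_filter.1 hp).1) _ (hM1 q (mem_filter.1 hq).1)
        (congrArg Sum.inl e))⟩
    (fun p hp => (mem_filter.1 hp).2) (by omega) fun θ => by
      have a1 := (sum_le_sum_of_subset (filter_subset (fun p => ¬ g.F p.1 p.2) M1)).trans (h1 θ)
      have a2 := ind_le_one θ (2 * g.R)
      have a3 := Nat.mul_le_mul_left (ρ + 1) (ind_le_one θ 0)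
      omega
  omega

lemma top_yes (hg : g.Bd) {d : ℕ} (hy : g.Yes d h) : TriYes (g.tY h) (g.tX h) (g.tL h) d := by
  obtain ⟨lv, col, h1, h2, h3, h4⟩ := hy
  choose τ hτ1 hτ2 using fun s => exists_chain (g.y (5 * g.Λ)) (fun n => n.elim 0 (col s)) h
    fun n => by cases n; exacts [Nat.zero_le _, h2 s _]
  obtain ⟨ℓ, hℓ1, hℓ2⟩ := exists_inj_of_dom
    (fun p : Fin d × (Option g.N ⊕ Fin h) =>
      p.2.elim (fun n => n.elim (2 * g.R : ℤ) (lv p.1)) fun _ => 0)
    (fun q : (Option g.L ⊕ Fin h) × Fin d => g.tL h q.1) fun θ => by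
      have := h4 θ
      simp only [Fintype.sum_prod_type, Fintype.sum_sum_type, Fintype.sum_option, tL, sum_const,
        card_univ, Fintype.card_fin, smul_eq_mul, Sum.elim_inl, Sum.elim_inr, Option.elim,
        sum_add_distrib, ← mul_sum]
      rw [mul_add, mul_add]
      omega
  refine ⟨τ, ℓ, hτ1, hℓ1, fun s a => le_trans ?_ (hℓ2 (s, a))⟩
  have hR := g.le_R
  have hx : g.tX h (τ s a) ≤ g.R := by
    rcases τ s a with n | t
    · exact (abs_le.1 (hg.x_le_R n)).2
    · simp only [tX]; omega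
  rcases a with (_ | n) | t
  · have := abs_le.1 (hg.y_le_R none)
    simp only [tY, Sum.elim_inl, Option.elim]; omega
  · rcases e : τ s (.inl (some n)) with n' | t
    · have ok := h3 s _ le_rfl
      rcases hτ2 s _ _ e with ⟨a1, rfl⟩ | ⟨a1, a2, a3, a4⟩
      · exact ok.1 n a1
      · rcases n' with _ | n'
        · exact absurd a3.symm a2
        · exact ok.2 n n' (fun e => a1 (congrArg some e)) a2 a3 a4
    · have := abs_le.1 (hg.y_le_R (some n))
      have := abs_le.1 (h1 s n)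
      simp only [tY, tX, Sum.elim_inl, Option.elim]; omega
  · simp only [tY, Sum.elim_inr]; omega

end Gad

end Crest.Agent.R318N
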