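import Crest.Agent.R318N.No

/-! Row 318: completeness of a round. -/

set_option autoImplicit false

open Finset

namespace Crest.Agent.R318N

namespace Inst

variable (I : Inst) (E : ℕ) {g : Gad}

/-- needed level of a slot -/
def need2 (g : Gad) (U : Finset (Fin I.m)) (v : Fin I.m) (i : ℕ) : ℤ :=
  if v ∈ U then S2 g ((I.rk v i + 1) * (I.m * I.K E)) else 0

/-- needed level of a vertex -/
def need1 (g : Gad) (U : Finset (Fin I.m)) (v : Fin I.m) : ℤ :=
  if v ∈ U then 0 else I.S1 E g (E + 1)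

lemma dom1 (hu : I.u ≤ I.m) {U : Finset (Fin I.m)} (hU : #U = I.u) (θ : ℤ) :
    ∑ v, ind θ (I.need1 E g U v) = ∑ t : Fin I.m, ind θ (I.lab1 E g t) := by
  simp only [need1, lab1, apply_ite (ind θ), sum_ite, sum_const, smul_eq_mul]
  have h1 := card_fin_not_lt hu
  have h2 := card_filter_add_card_filter_not (s := univ) fun v => v ∈ U
  have h3 : #{v | v ∈ U} = I.u := by rw [← hU]; congr 1; ext; simp
  rw [card_univ, Fintype.card_fin, h3] at h2
  rw [card_fin_lt hu, h3, show #{v | v ∉ U} = #{t : Fin I.m | ¬ (t : ℕ) < I.u} by omega]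

lemma dom2 (hu : I.u ≤ I.m) {d : ℕ} {U : Fin d → Finset (Fin I.m)} (hU : ∀ s, #(U s) = I.u) (i : ℕ)
    (hi : ∑ s, #((U s).filter fun v : Fin I.m => I.A i v) ≤ d * I.b i) (θ : ℤ) :
    ∑ s, ∑ v, ind θ (I.need2 E g (U s) v i) ≤ d * ∑ t : Fin I.m, ind θ (I.lab2 E g t i) := by
  have hlo := S2_nonneg g ((2 * i + 0 + 1) * (I.m * I.K E))
  have hhi : S2 g ((2 * i + 0 + 1) * (I.m * I.K E)) ≤ S2 g ((2 * i + 1 + 1) * (I.m * I.K E)) :=
    sc_mono _ _ (Nat.mul_le_mul_right _ (by omega))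
  have hd : ∀ (f : Fin d → ℕ) (c : ℕ), (∀ s, f s ≤ c) → ∑ s, f s ≤ d * c := fun f c h =>
    (sum_le_card_nsmul _ _ c fun s _ => h s).trans_eq (by simp)
  rcases le_or_gt θ 0 with h0 | h0
  · rw [sum_ind_of_le (s := univ) (f := fun t : Fin I.m => I.lab2 E g t i) fun t _ => h0.trans (by
      unfold lab2; split_ifs
      exacts [S2_nonneg _ _, le_rfl])]
    exact hd _ _ fun s => sum_ind_le _ _ _
  have b1 : ∀ s, ∑ v, ind θ (I.need2 E g (U s) v i) ≤ I.u := fun s => by
    rw [sum_ind_eq, ← hU s]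
    refine card_le_card fun v hv => ?_
    have := (mem_filter.1 hv).2
    by_contra hcon
    rw [need2, if_neg hcon] at this
    omega
  rcases le_or_gt θ (S2 g ((2 * i + 0 + 1) * (I.m * I.K E))) with h1 | h1
  · refine (hd _ _ b1).trans (Nat.mul_le_mul_left _ ?_)
    rw [sum_ind_eq]
    refine (card_fin_lt hu).symm.trans_le (card_le_card fun t ht => mem_filter.2 ⟨mem_univ _, ?_⟩)
    rw [lab2, if_pos (mem_filter.1 ht).2, rl]
    split_ifs
    exacts [h1.trans hhi, h1]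
  rcases le_or_gt θ (S2 g ((2 * i + 1 + 1) * (I.m * I.K E))) with h2 | h2
  · have b2 : ∀ s, ∑ v, ind θ (I.need2 E g (U s) v i) ≤
        #((U s).filter fun v : Fin I.m => I.A i v) := fun s => by
      rw [sum_ind_eq]
      refine card_le_card fun v hv => ?_
      have := (mem_filter.1 hv).2
      unfold need2 rk at this
      split_ifs at this with h3
      · refine mem_filter.2 ⟨h3, ?_⟩
        by_contra hcon
        rw [Bool.not_eq_true] at hcon
        rw [hcon, Bool.toNat_false] at this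
        omega
      · omega
    have b3 : min I.u (I.b i) ≤ ∑ t : Fin I.m, ind θ (I.lab2 E g t i) := by
      rw [sum_ind_eq]
      refine (card_fin_lt ((min_le_left _ _).trans hu)).symm.trans_le
        (card_le_card fun t ht => mem_filter.2 ⟨mem_univ _, ?_⟩)
      have := lt_min_iff.1 (mem_filter.1 ht).2
      rw [lab2, if_pos this.1, rl, if_pos this.2]
      exact h2
    refine le_trans ?_ (Nat.mul_le_mul_left _ b3)
    rw [mul_min]
    exact le_min (hd _ _ b1) ((sum_le_sum fun s _ => b2 s).trans hi)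
  · rw [sum_eq_zero fun s _ => sum_ind_of_lt fun v _ => ?_]
    · exact Nat.zero_le _
    · unfold need2 rk
      split_ifs
      · cases I.A i v
        exacts [h1, h2]
      · exact h0

/-- needed levels in a vertex -/
def lv1 (g : Gad) (U : Finset (Fin I.m)) (lv : g.N → ℤ) (v : Fin I.m) (s : I.κ2 E) :
    Option g.N → ℤ
  | none => I.need2 E g U v s.1
  | some n => lv n - S2 g (I.ex E v s.1 s.2)

/-- colours in a vertex -/
def col1 (g : Gad) (U : Finset (Fin I.m)) (col : g.N → ℕ) (h : ℕ) (v : Fin I.m) : Option g.N → ℕ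
  | none => if v ∈ U then 0 else h + 1
  | some n => col n

/-- needed levels in a round -/
def lv2 (g : Gad) (U : Finset (Fin I.m)) (lv : g.N → ℤ) (V : I.κ1 E) : I.α1 E g → ℤ
  | none => I.need1 E g U V.2
  | some n => I.lv1 E g U lv V.2 n.1 n.2 - I.S1 E g V.1

/-- colours in a round -/
def col2 (g : Gad) (U : Finset (Fin I.m)) (col : g.N → ℕ) (h : ℕ) (V : I.κ1 E) : I.α1 E g → ℕ
  | none => if V.2 ∈ U then h + 1 else 0
  | some n => I.col1 g U col h V.2 n.2

variable {U : Finset (Fin I.m)} {lv : g.N → ℤ} {col : g.N → ℕ} {h : ℕ}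

lemma lv1_le (hl : ∀ n, |lv n| ≤ g.Λ) (v : Fin I.m) (s : I.κ2 E) (n : Option g.N) :
    |I.lv1 E g U lv v s n| ≤ I.Λ1 E g := by
  rcases n with _ | n
  · simp only [lv1, need2]
    split_ifs
    · rw [abs_of_nonneg (S2_nonneg _ _)]; exact I.S2_le E g (I.rk_lt _ _)
    · simp
  · exact lab_le' (hl n) (I.ex_lt_em E _ _)

lemma lv2_le (hl : ∀ n, |lv n| ≤ g.Λ) (V : I.κ1 E) (n : I.α1 E g) :
    |I.lv2 E g U lv V n| ≤ (I.round E g).Λ := by
  rcases n with _ | n
  · simp only [lv2, need1]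
    split_ifs
    · simp
    · rw [abs_of_nonneg (I.S1_nonneg E _ _)]; exact le_rfl
  · exact lab_le' (I.lv1_le E hl _ _ _) V.1.2

lemma ok1 (hg : g.Bd) (hl : ∀ n, |lv n| ≤ g.Λ) (hc : ∀ n, col n ≤ h)
    (hok : ∀ G : ℤ, 5 * (g.Λ : ℤ) ≤ G →
      OK (fun n => g.y G (some n)) (fun n => g.x G (some n)) lv col) (v : Fin I.m) {G : ℤ}
    (hG : 5 * (I.Λ1 E g : ℤ) ≤ G) :
    OK (fun n => I.y1 E g v G (some n)) (fun n => I.x1 E g v G (some n))
      (fun n => I.lv1 E g U lv v n.1 n.2) fun n => I.col1 g U col h v n.2 := by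
  refine OK.level (I.pos2_inj E) (col := fun _ n => I.col1 g U col h v n) (fun s => ?_)
    (fun s n => hg.geo.y_le' (I.ex_lt_em E v s) n) (fun s n => hg.geo.x_le' (I.ex_lt_em E v s) n)
    (I.lv1_le E hl v) (I.one_le_Λ1 E hg) hG _
  refine OK.root ((hok _ ?_).shift _) (fun h1 => ?_) fun h1 n => ?_
  · have := le_sc g.W g.Λ (I.ex E v s.1 s.2)
    omega
  · have h2 : v ∈ U := by
      by_contra hcon
      simp [col1, hcon] at h1
    have h3 := hg.geo.up (I.ex E v s.1 s.2) none none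
    have h4 := sc_mono g.W g.Λ (Nat.add_one_le_of_lt (I.ex_lt E v s))
    simp only [lv1, need2, if_pos h2]
    unfold S2; omega
  · have := hc n
    simp only [col1] at h1 ⊢
    split_ifs at h1 ⊢ <;> omega

lemma ok2 (hg : g.Bd) (hl : ∀ n, |lv n| ≤ g.Λ) (hc : ∀ n, col n ≤ h)
    (hok : ∀ G : ℤ, 5 * (g.Λ : ℤ) ≤ G →
      OK (fun n => g.y G (some n)) (fun n => g.x G (some n)) lv col) {G : ℤ}
    (hG : 5 * ((I.round E g).Λ : ℤ) ≤ G) :
    OK (fun n => (I.round E g).y G (some n)) (fun n => (I.round E g).x G (some n))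
      (fun n => I.lv2 E g U lv n.1 n.2) fun n => I.col2 E g U col h n.1 n.2 := by
  refine OK.level (I.pos1_inj E) (fun V => ?_)
    (fun V n => (I.geo1 E hg V.2).y_le' V.1.2 n) (fun V n => (I.geo1 E hg V.2).x_le' V.1.2 n)
    (I.lv2_le E hl) (I.round_bd E hg).one_le hG ((E + 1) * I.m)
  refine OK.root ((I.ok1 E hg hl hc hok V.2 ?_).shift _) (fun h1 => ?_) fun h1 n => ?_
  · have := le_sc (I.r * I.K E + 1) (I.Λ1 E g) V.1
    omega
  · have h2 : V.2 ∉ U := by
      intro hcon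
      simp [col2, hcon] at h1
    have h3 := (I.geo1 E hg V.2).up V.1 none none
    have h4 := sc_mono (I.r * I.K E + 1) (I.Λ1 E g) (Nat.add_one_le_of_lt V.1.2)
    simp only [lv2, need1, if_neg h2]
    unfold S1; omega
  · rcases n with ⟨s, _ | n⟩
    · simp only [col2, col1] at h1 ⊢
      split_ifs at h1 ⊢ <;> omega
    · have := hc n
      simp only [col2, col1] at h1 ⊢
      split_ifs at h1 ⊢ <;> omega

lemma round_yes (hg : g.Bd) (hu : I.u ≤ I.m) {d : ℕ} (hy : I.Yes d) {h : ℕ} (hh : g.Yes d h) :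
    (I.round E g).Yes d (h + 1) := by
  obtain ⟨U, hU, hA⟩ := hy
  obtain ⟨lv, col, h1, h2, h3, h4⟩ := hh
  refine ⟨fun s n => I.lv2 E g (U s) (lv s) n.1 n.2, fun s n => I.col2 E g (U s) (col s) h n.1 n.2,
    fun s n => I.lv2_le E (h1 s) _ _, fun s n => ?_,
    fun s G hG => I.ok2 E hg (h1 s) (h2 s) (h3 s) hG, fun θ => ?_⟩
  · rcases n with ⟨V, _ | ⟨sl, _ | n⟩⟩
    · simp only [col2]; split_ifs <;> omega
    · simp only [col2, col1]; split_ifs <;> omega
    · exact (h2 s n).trans (Nat.le_succ _)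
  change ∑ s, ∑ n : I.κ1 E × I.α1 E g, ind θ (I.lv2 E g (U s) (lv s) n.1 n.2) ≤
    d * ∑ l : I.κ1 E ⊕ (Fin (E + 1) × I.L1 E g), ind θ (I.lam2 E g l)
  simp only [Fintype.sum_prod_type, Fintype.sum_option, Fintype.sum_sum_type, lv2, lv1, lam2, lam1,
    sum_add_distrib, mul_add, ind_sub]
  refine add_le_add ?_ (add_le_add ?_ ?_)
  · simp only [I.dom1 E hu (hU _)]
    simp
  · rw [sum_comm, mul_sum]
    refine sum_le_sum fun j _ => ?_
    simp only [sum_comm (s := (univ : Finset (Fin I.m)))]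
    rw [sum_comm, mul_sum]
    refine sum_le_sum fun i _ => ?_
    rw [sum_comm, mul_sum]
    exact sum_le_sum fun k _ => I.dom2 E hu hU i (hA i) _
  · rw [sum_comm, mul_sum]
    refine sum_le_sum fun j _ => ?_
    rw [sum_comm, mul_sum]
    refine sum_le_sum fun v _ => ?_
    rw [sum_comm, mul_sum]
    refine sum_le_sum fun i _ => ?_
    rw [sum_comm, mul_sum]
    exact sum_le_sum fun k _ => h4 _

lemma tower_yes (hu : I.u ≤ I.m) {d : ℕ} (hy : I.Yes d) : ∀ h E, (I.tower h E).Yes d h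
  | 0, _ => leaf_yes d
  | h + 1, E => I.round_yes E (I.tower_bd h _) hu hy (tower_yes hu hy h _)

end Inst

end Crest.Agent.R318N
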